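import Vale.Agent.P148.R2.H826.Eq1
import Vale.Agent.P148.R2.H729.Q5
import Vale.Agent.P148.R2.H729.Q3

/-!
# Similarities of coloured configurations: sets, regions and laws (P148, row EQ)
-/

open MeasureTheory Set Metric Function ProbabilityTheory
open scoped ENNReal NNReal

namespace Vale.Agent.P148.R2.H826

open H592 H184 _root_.P148 _root_.P148.H729

/-- The image of a coloured configuration under the similarity `z ↦ a z + b`. -/
def mv (a b : ℂ) (T : Set Pt) : Set Pt := (fun q : Pt => (sm a b q.1, q.2)) '' T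

section
variable {a b : ℂ}

theorem mem_mv (ha : a ≠ 0) {T : Set Pt} {z : ℂ} {c : Bool} :
    (sm a b z, c) ∈ mv a b T ↔ (z, c) ∈ T := by
  constructor
  · rintro ⟨⟨w, c'⟩, hw, he⟩
    simp only [Prod.mk.injEq, sm_eq_iff ha] at he
    obtain ⟨rfl, rfl⟩ := he
    exact hw
  · exact fun h => ⟨(z, c), h, rfl⟩

theorem pts_mv (T : Set Pt) : pts (mv a b T) = sm a b '' pts T := by
  unfold pts mv
  rw [image_image, image_image]

/-- The colour function of a configuration. -/
noncomputable def clr (T : Set Pt) (z : ℂ) : Bool := by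
  classical exact decide ((z, true) ∈ T)

theorem clr_eq_true {T : Set Pt} {z : ℂ} : clr T z = true ↔ (z, true) ∈ T := by
  unfold clr
  simp

theorem clr_mv (ha : a ≠ 0) (T : Set Pt) (z : ℂ) : clr (mv a b T) (sm a b z) = clr T z := by
  rw [Bool.eq_iff_iff, clr_eq_true, clr_eq_true, mem_mv ha]

theorem Tr_mv (ha : a ≠ 0) (T : Set Pt) (X : Set ℂ) : Tr a b X (clr T) (clr (mv a b T)) :=
  fun x _ => clr_mv ha T x

theorem cell_mv (ha : a ≠ 0) (T : Set Pt) (v : ℂ) :
    cell (mv a b T) (sm a b v) = sm a b '' cell T v := by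
  have := vcell_sm (X := pts T) (b := b) ha v
  rw [← pts_mv] at this
  exact this

theorem blackRegion_mv (ha : a ≠ 0) (T : Set Pt) :
    blackRegion (mv a b T) = sm a b '' blackRegion T := by
  unfold blackRegion
  rw [image_iUnion₂]
  ext z
  simp only [mem_iUnion]
  constructor
  · rintro ⟨v, hv, hz⟩
    obtain ⟨v, rfl⟩ := sm_surj (b := b) ha v
    exact ⟨v, (mem_mv ha).1 hv, by rw [← cell_mv ha]; exact hz⟩
  · rintro ⟨v, hv, hz⟩
    exact ⟨sm a b v, (mem_mv ha).2 hv, by rw [cell_mv ha]; exact hz⟩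

theorem whiteRegion_mv (ha : a ≠ 0) (T : Set Pt) :
    whiteRegion (mv a b T) = sm a b '' whiteRegion T := by
  unfold whiteRegion
  rw [image_iUnion₂]
  ext z
  simp only [mem_iUnion]
  constructor
  · rintro ⟨v, hv, hz⟩
    obtain ⟨v, rfl⟩ := sm_surj (b := b) ha v
    exact ⟨v, (mem_mv ha).1 hv, by rw [← cell_mv ha]; exact hz⟩
  · rintro ⟨v, hv, hz⟩
    exact ⟨sm a b v, (mem_mv ha).2 hv, by rw [cell_mv ha]; exact hz⟩

theorem res_mv (ha : a ≠ 0) (U : Set ℂ) (T : Set Pt) :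
    res (sm a b '' U) (mv a b T) = mv a b (res U T) := by
  ext ⟨z, c⟩
  obtain ⟨z, rfl⟩ := sm_surj (b := b) ha z
  rw [mem_mv ha]
  unfold res
  simp only [mem_inter_iff, mem_mv ha, mem_prod, mem_sm ha, mem_univ, and_true]

theorem mv_mv (a' b' : ℂ) (T : Set Pt) : mv a' b' (mv a b T) = mv (a' * a) (a' * b + b') T := by
  unfold mv
  rw [image_image]
  refine image_congr fun q _ => ?_
  simp only [sm, Prod.mk.injEq, and_true]
  ring

theorem mv_one (T : Set Pt) : mv 1 0 T = T := by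
  unfold mv
  simp [sm]

/-! ## Laws -/

/-- The rotation `z ↦ a z + b`, `|a| = 1`. -/
noncomputable def smI (a b : ℂ) (ha : ‖a‖ = 1) : ℂ ≃ᵢ ℂ :=
  have ha0 : a ≠ 0 := fun h => by rw [h, norm_zero] at ha; exact zero_ne_one ha
  ⟨⟨sm a b, sm a⁻¹ (-(a⁻¹ * b)), sm_inv_sm ha0, sm_sm_inv ha0⟩, Isometry.of_dist_eq fun z w => by
    show dist (sm a b z) (sm a b w) = dist z w
    rw [dist_sm, ha, one_mul]⟩

theorem isoP_smI (ha : ‖a‖ = 1) (T : Set Pt) :
    isoP (smI a b ha) (Equiv.refl Bool) '' T = mv a b T := rfl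

variable {Ω : Type*} [MeasurableSpace Ω] {P : Measure Ω} {S : Ω → Set Pt} {lam : ℝ≥0}

/-- **Scaling relation**: the image of a coloured Poisson process under `z ↦ a z + b` is a coloured
Poisson process. -/
theorem mv_poisson (h : IsColouredPoisson P S lam) (ha : a ≠ 0) :
    IsColouredPoisson P (fun ω => mv a b (S ω)) (lam / ‖a‖₊ ^ 2) := by
  have h0 : ‖a‖₊ ≠ 0 := nnnorm_ne_zero_iff.2 ha
  have h1 : (‖a‖ : ℂ) ≠ 0 := by exact_mod_cast norm_ne_zero_iff.2 ha
  have h2 : ‖a / (‖a‖ : ℂ)‖ = 1 := by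
    rw [norm_div, Complex.norm_real, norm_norm, div_self (norm_ne_zero_iff.2 ha)]
  have h3 := iso_poisson (scale_poisson h h0) (smI (a / (‖a‖ : ℂ)) b h2) (Equiv.refl Bool)
  have h4 : (fun ω => isoP (smI (a / (‖a‖ : ℂ)) b h2) (Equiv.refl Bool) ''
      (scaleP (‖a‖₊ : ℝ≥0) '' S ω)) = fun ω => mv a b (S ω) := by
    funext ω
    rw [image_image]
    refine image_congr fun q _ => ?_
    show (sm (a / (‖a‖ : ℂ)) b (((‖a‖₊ : ℝ≥0) : ℝ) * q.1 : ℂ), q.2) = (sm a b q.1, q.2)
    unfold sm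
    rw [coe_nnnorm]
    congr 1
    field_simp
  rwa [h4] at h3

theorem mv_poisson' (h : IsColouredPoisson P S lam) (ha : ‖a‖ = 1) :
    IsColouredPoisson P (fun ω => mv a b (S ω)) lam :=
  iso_poisson h (smI a b ha) (Equiv.refl Bool)

variable {Ω' : Type*} [MeasurableSpace Ω'] {P' : Measure Ω'} {S' : Ω' → Set Pt} {lam' : ℝ≥0}

/-- Expectations under rotations and translations. -/
theorem lintegral_mv [IsProbabilityMeasure P] (h : IsColouredPoisson P S lam) (ha : ‖a‖ = 1)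
    {F : Set Pt → ℝ≥0∞} (hF : @Measurable _ _ voidSigma _ F) :
    ∫⁻ ω, F (mv a b (S ω)) ∂P = ∫⁻ ω, F (S ω) ∂P :=
  lintegral_law_eq h (mv_poisson' h ha) hF

theorem integral_mv [IsProbabilityMeasure P] {E : Type*} [NormedAddCommGroup E]
    [NormedSpace ℝ E] [MeasurableSpace E] [BorelSpace E] [SecondCountableTopology E]
    (h : IsColouredPoisson P S lam) (ha : ‖a‖ = 1) {F : Set Pt → E}
    (hF : @Measurable _ _ voidSigma _ F) :
    ∫ ω, F (mv a b (S ω)) ∂P = ∫ ω, F (S ω) ∂P :=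
  integral_law_eq h (mv_poisson' h ha) hF

theorem prob_mv [IsProbabilityMeasure P] (h : IsColouredPoisson P S lam) (ha : ‖a‖ = 1)
    {A : Set (Set Pt)} (hA : @MeasurableSet _ voidSigma A) :
    P {ω | mv a b (S ω) ∈ A} = P {ω | S ω ∈ A} :=
  prob_law_eq h (mv_poisson' h ha) hA

/-- Expectations under similarities, between processes of different intensities. -/
theorem lintegral_mv_scale [IsProbabilityMeasure P] [IsProbabilityMeasure P']
    (h : IsColouredPoisson P S lam) (ha : a ≠ 0)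
    (h' : IsColouredPoisson P' S' (lam / ‖a‖₊ ^ 2))
    {F : Set Pt → ℝ≥0∞} (hF : @Measurable _ _ voidSigma _ F) :
    ∫⁻ ω, F (mv a b (S ω)) ∂P = ∫⁻ ω, F (S' ω) ∂P' :=
  lintegral_law_eq h' (mv_poisson h ha) hF

theorem integral_mv_scale [IsProbabilityMeasure P] [IsProbabilityMeasure P']
    {E : Type*} [NormedAddCommGroup E] [NormedSpace ℝ E] [MeasurableSpace E] [BorelSpace E]
    [SecondCountableTopology E]
    (h : IsColouredPoisson P S lam) (ha : a ≠ 0)
    (h' : IsColouredPoisson P' S' (lam / ‖a‖₊ ^ 2))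
    {F : Set Pt → E} (hF : @Measurable _ _ voidSigma _ F) :
    ∫ ω, F (mv a b (S ω)) ∂P = ∫ ω, F (S' ω) ∂P' :=
  integral_law_eq h' (mv_poisson h ha) hF

/-- **Congruence of means on an event**: if the event and the variable of the moved box are the
moved ones (the variable up to the factor `ρ`), then the mean on the event is the same up to `ρ`. -/
theorem mean_congr [IsProbabilityMeasure P] (h : IsColouredPoisson P S lam) (ha : ‖a‖ = 1)
    {A A' : Set (Set Pt)} (hA' : @MeasurableSet _ voidSigma A')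
    {F F' : Set Pt → ℂ} (hF' : @Measurable _ _ voidSigma _ F') {ρ : ℂ}
    (hAA : ∀ T, mv a b T ∈ A' ↔ T ∈ A) (hFF : ∀ T, T ∈ A → F' (mv a b T) = ρ * F T) :
    ∫ ω, {ω | S ω ∈ A'}.indicator (fun ω => F' (S ω)) ω ∂P =
      ρ * ∫ ω, {ω | S ω ∈ A}.indicator (fun ω => F (S ω)) ω ∂P := by
  have hG : @Measurable _ _ voidSigma _ (A'.indicator F') :=
    @Measurable.indicator _ _ _ _ voidSigma _ _ hF' hA'
  have h1 := integral_mv (b := b) h ha hG
  have h2 : ∀ ω, {ω | S ω ∈ A'}.indicator (fun ω => F' (S ω)) ω = A'.indicator F' (S ω) := by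
    intro ω
    by_cases hω : S ω ∈ A'
    · rw [indicator_of_mem (show ω ∈ {ω | S ω ∈ A'} from hω), indicator_of_mem hω]
    · rw [indicator_of_notMem (show ω ∉ {ω | S ω ∈ A'} from hω), indicator_of_notMem hω]
  have h3 : ∀ ω, A'.indicator F' (mv a b (S ω)) =
      ρ * {ω | S ω ∈ A}.indicator (fun ω => F (S ω)) ω := by
    intro ω
    by_cases hω : S ω ∈ A
    · rw [indicator_of_mem (show ω ∈ {ω | S ω ∈ A} from hω), indicator_of_mem ((hAA _).2 hω),
        hFF _ hω]
    · rw [indicator_of_notMem (show ω ∉ {ω | S ω ∈ A} from hω),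
        indicator_of_notMem (fun hh => hω ((hAA _).1 hh)), mul_zero]
  simp_rw [h2]
  rw [← h1]
  simp_rw [h3]
  rw [integral_const_mul]

end

end Vale.Agent.P148.R2.H826
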