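import Vale.Agent.P148.R2.H826.VkEq
import Vale.Agent.P148.R2.H729.Mk
import Vale.Agent.P148.R2.H729.Meas8
import Vale.Agent.P148.R2.H504.TkEq

/-!
# P148, row N5: equivariance of the local means

`eqv` : the field `Means.eqv` of `H598` for the means `mT` of `H729`, reference cell `10`.
-/

open Set Relation Metric Function

namespace Vale.Agent.P148.R2.H826

open _root_.P148
open _root_.P148.H729 (GPs mraw mtr mT wA pts_inter_wA)
open Vale.Agent.P148.R2.N
open Vale.Agent.P148.R2.H678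
open Vale.Agent.P148.R2.H504 (tk tk_add tk_straight)
open Vale.Agent.P148.R2.H172 (ExT)
open Vale.Agent.P148.R2.H938 (HubEv CorEv)
open Vale.Agent.P148.R2.H592 (nbr Three)
open Vale.Agent.P148.R2.H184 (Dt)
open Vale.Agent.P148.R2.H565 (cellV Qw gb Qw_gb)
open Vale.Agent.P148.R2.H488 (cw hc)

section
variable {M l : ℕ} {Y B₁ B₂ : Set ℂ} {t : Finset ℕ}

theorem ExT_mo {Bl Wh : Set ℂ} (ht : ∀ j ∈ t, l % (2 * M + 1) + (j + 1) ≤ 2 * M) :
    ExT M (mo M l '' Y) (mo M l '' Bl) (mo M l '' Wh) (t.image fun j => l + j) =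
      mo M l '' ExT M Y Bl Wh t := by
  unfold ExT
  ext v
  obtain ⟨v, rfl⟩ := mo_surj M l v
  rw [(mo_inj M l).mem_set_image]
  simp only [mem_iUnion, exists_prop, Finset.mem_image]
  constructor
  · rintro ⟨_, ⟨j, hj, rfl⟩, h⟩
    have h1 := ht j hj
    rw [inHub_mo (by omega), outHub_mo (by omega), ← image_union,
      (mo_inj M l).mem_set_image] at h
    exact ⟨j, hj, h⟩
  · rintro ⟨j, hj, h⟩
    have h1 := ht j hj
    refine ⟨l + j, ⟨j, hj, rfl⟩, ?_⟩
    rw [inHub_mo (by omega), outHub_mo (by omega), ← image_union, (mo_inj M l).mem_set_image]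
    exact h

theorem cmp_mo (ht : ∀ j ∈ t, l % (2 * M + 1) + (j + 1) ≤ 2 * M) :
    _root_.P148.H729.cmp M (t.image fun j => l + j) (mo M l '' Y) (mo M l '' B₁) (mo M l '' B₂) =
      mo M l '' _root_.P148.H729.cmp M t Y B₁ B₂ := by
  unfold _root_.P148.H729.cmp
  rw [← image_sdiff (mo_inj M l), ExT_mo ht, mix_image (mo_inj M l)]

/-- The motion of a pair of sets. -/
def moS (M l : ℕ) (p : Set ℂ × Set ℂ) : Set ℂ × Set ℂ := (mo M l '' p.1, mo M l '' p.2)

theorem moS_inj (M l : ℕ) : Injective (moS M l) := by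
  rintro ⟨a, b⟩ ⟨a', b'⟩ h
  have h1 : mo M l '' a = mo M l '' a' := congrArg Prod.fst h
  have h2 : mo M l '' b = mo M l '' b' := congrArg Prod.snd h
  rw [(mo_inj M l).image_injective h1, (mo_inj M l).image_injective h2]

theorem moS_surj (M l : ℕ) : Surjective (moS M l) := by
  rintro ⟨a, b⟩
  obtain ⟨a, rfl⟩ := (mo_surj M l).image_surjective a
  obtain ⟨b, rfl⟩ := (mo_surj M l).image_surjective b
  exact ⟨(a, b), rfl⟩

theorem GPs_mo (ht : ∀ j ∈ t, l % (2 * M + 1) + (j + 1) ≤ 2 * M) :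
    GPs M (t.image fun j => l + j) (mo M l '' Y) = moS M l '' GPs M t Y := by
  ext p
  obtain ⟨p, rfl⟩ := moS_surj M l p
  rw [(moS_inj M l).mem_set_image]
  unfold GPs
  rw [mem_ofPred_eq, mem_ofPred_eq]
  refine and_congr (and_congr ?_ ?_) ?_
  · exact image_subset_image_iff (mo_inj M l)
  · exact image_subset_image_iff (mo_inj M l)
  · constructor
    · intro h j hj
      have h1 := ht j hj
      have h2 := h (l + j) (Finset.mem_image_of_mem _ hj)
      have e1 : mo M l '' Y \ (moS M l p).1 = mo M l '' (Y \ p.1) :=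
        (image_sdiff (mo_inj M l) _ _).symm
      have e2 : mo M l '' Y \ (moS M l p).2 = mo M l '' (Y \ p.2) :=
        (image_sdiff (mo_inj M l) _ _).symm
      rw [e1, e2] at h2
      exact ⟨(hubEv_mo (by omega)).1 h2.1, (corEv_mo h1).1 h2.2⟩
    · intro h i hi
      obtain ⟨j, hj, rfl⟩ := Finset.mem_image.1 hi
      have h1 := ht j hj
      have h2 := h j hj
      have e1 : mo M l '' Y \ (moS M l p).1 = mo M l '' (Y \ p.1) :=
        (image_sdiff (mo_inj M l) _ _).symm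
      have e2 : mo M l '' Y \ (moS M l p).2 = mo M l '' (Y \ p.2) :=
        (image_sdiff (mo_inj M l) _ _).symm
      rw [e1, e2]
      exact ⟨(hubEv_mo (by omega)).2 h2.1, (corEv_mo h1).2 h2.2⟩

theorem finsum_mul_mem {α : Type*} (c : ℂ) (S : Set α) (f : α → ℂ) :
    ∑ᶠ p ∈ S, c * f p = c * ∑ᶠ p ∈ S, f p := by
  have h1 := smul_finsum c fun p => ∑ᶠ (_ : p ∈ S), f p
  have h2 : ∀ p, c • ∑ᶠ (_ : p ∈ S), f p = ∑ᶠ (_ : p ∈ S), c • f p := fun p => smul_finsum _ _
  simp only [h2] at h1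
  exact h1.symm

/-- Equivariance of the mean value of a cell. -/
theorem mraw_mo (hM : 0 < M) {Θ : Dt → ℂ} (hΘ : Turn Θ) (h : l % (2 * M + 1) + 21 ≤ 2 * M)
    (hl : l + 10 < nc M) (h3 : Three (Y ∩ csq (cellC M 10) (3 * ms M))) :
    mraw M (cw (hc M (l + 10)) Θ) (l + 10) (mo M l '' Y) =
      Complex.I ^ (l / (2 * M + 1)) * mraw M (cw (hc M 10) Θ) 10 Y := by
  have e2 : 10 % (2 * M + 1) = 10 := Nat.mod_eq_of_lt (by omega)
  have hn : nc M = 4 * (2 * M + 1) := by unfold nc; ring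
  have ht : ∀ j ∈ tk M 10, l % (2 * M + 1) + (j + 1) ≤ 2 * M := by
    intro j hj
    rw [tk_straight hM (k := 10) (by omega) (by rw [e2]) (by rw [e2]; omega), Finset.mem_Icc] at hj
    omega
  unfold mraw
  rw [tk_add hM h hl, GPs_mo ht, ncard_image_of_injective _ (moS_inj M l),
    finsum_mem_image (moS_inj M l).injOn]
  have e : ∀ p : Set ℂ × Set ℂ, cellV M (mo M l '' Y) (_root_.P148.H729.cmp M ((tk M 10).image fun j => l + j)
      (mo M l '' Y) (moS M l p).1 (moS M l p).2) (cw (hc M (l + 10)) Θ) (l + 10) =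
      Complex.I ^ (l / (2 * M + 1)) *
        cellV M Y (_root_.P148.H729.cmp M (tk M 10) Y p.1 p.2) (cw (hc M 10) Θ) 10 := by
    intro p
    show cellV M (mo M l '' Y) (_root_.P148.H729.cmp M ((tk M 10).image fun j => l + j)
      (mo M l '' Y) (mo M l '' p.1) (mo M l '' p.2)) (cw (hc M (l + 10)) Θ) (l + 10) = _
    rw [cmp_mo ht]
    exact cellV_mo hΘ (by omega) h3 (by omega)
  simp only [e]
  rw [finsum_mul_mem, mul_div_assoc]

theorem three_mo {Z : Set ℂ} : Three (mo M l '' Z) ↔ Three Z := by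
  have hα := I_pow_ne (l / (2 * M + 1))
  constructor
  · intro h
    have := H565.Three_sm (α := (Complex.I ^ (l / (2 * M + 1)))⁻¹)
      (β := -((Complex.I ^ (l / (2 * M + 1)))⁻¹ * tr M l)) (inv_ne_zero hα) h
    rw [sm_eq] at this
    have e : sm (Complex.I ^ (l / (2 * M + 1)))⁻¹
        (-((Complex.I ^ (l / (2 * M + 1)))⁻¹ * tr M l)) '' (mo M l '' Z) = Z := sm_inv_image hα Z
    rwa [e] at this
  · intro h
    exact H565.Three_sm hα h

/-- Equivariance of the truncated mean. -/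
theorem mtr_mo (hM : 0 < M) {Θ : Dt → ℂ} (hΘ : Turn Θ) (h : l % (2 * M + 1) + 21 ≤ 2 * M)
    (hl : l + 10 < nc M) (K : ℝ) :
    mtr M (cw (hc M (l + 10)) Θ) K (l + 10) (mo M l '' Y) =
      Complex.I ^ (l / (2 * M + 1)) * mtr M (cw (hc M 10) Θ) K 10 Y := by
  have e1 : mo M l '' Y ∩ Qw M (gb M (l + 10)) = mo M l '' (Y ∩ csq (cellC M 10) (3 * ms M)) := by
    rw [Qw_gb, cellC_add (by omega), image_inter (mo_inj M l)]
    congr 1
    exact csq_sm
  unfold mtr
  rw [e1, Qw_gb M 10]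
  by_cases h3 : Three (Y ∩ csq (cellC M 10) (3 * ms M))
  · rw [mraw_mo hM hΘ h hl h3, norm_mul, norm_I_pow, one_mul]
    by_cases hb : ‖mraw M (cw (hc M 10) Θ) 10 Y‖ ^ 2 ≤ K * ms M ^ 2
    · rw [if_pos ⟨three_mo.2 h3, hb⟩, if_pos ⟨h3, hb⟩]
    · rw [if_neg fun hh => hb hh.2, if_neg fun hh => hb hh.2, mul_zero]
  · rw [if_neg fun hh => h3 (three_mo.1 hh.1), if_neg fun hh => h3 hh.1, mul_zero]

theorem win_mo (R : ℝ) {j : ℕ} (h : l % (2 * M + 1) + j ≤ 2 * M) :
    H598.win M R (l + j) = mo M l '' H598.win M R j := by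
  unfold H598.win
  rw [cellC_add h]
  exact csq_sm

theorem mv_inter_wA (U : Set ℂ) (T : Set Pt) :
    mv (Complex.I ^ (l / (2 * M + 1))) (tr M l) T ∩ wA (mo M l '' U) =
      mv (Complex.I ^ (l / (2 * M + 1))) (tr M l) (T ∩ wA U) := by
  ext ⟨z, c⟩
  obtain ⟨z, rfl⟩ := mo_surj M l z
  show (mo M l z, c) ∈ mv _ _ T ∧ (mo M l z, c) ∈ (mo M l '' U) ×ˢ (univ : Set Bool) ↔
    (mo M l z, c) ∈ mv _ _ (T ∩ U ×ˢ univ)
  rw [mem_prod]
  have e := fun T' : Set Pt => mem_mv (a := Complex.I ^ (l / (2 * M + 1))) (b := tr M l)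
    (I_pow_ne (l / (2 * M + 1))) (T := T') (z := z) (c := c)
  have e1 : (mo M l z, c) ∈ mv (Complex.I ^ (l / (2 * M + 1))) (tr M l) T ↔ (z, c) ∈ T := e T
  have e2 : (mo M l z, c) ∈ mv (Complex.I ^ (l / (2 * M + 1))) (tr M l) (T ∩ U ×ˢ univ) ↔
    (z, c) ∈ T ∩ U ×ˢ univ := e _
  rw [e1, e2, (mo_inj M l).mem_set_image]
  exact Iff.rfl

/-- **Equivariance of the local means** : `Means.eqv`. -/
theorem eqv (hM : 0 < M) {Θ : Dt → ℂ} (hΘ : Turn Θ) (K R : ℝ)
    (h : l % (2 * M + 1) + (2 * 10 + 1) ≤ 2 * M) (hl : l + 10 < nc M) (T : Set Pt) :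
    mT M Θ K R (l + 10) (mv (Complex.I ^ (l / (2 * M + 1))) (tr M l) T) =
      Complex.I ^ (l / (2 * M + 1)) * mT M Θ K R 10 T := by
  have hinj : Injective fun q : Pt => (sm (Complex.I ^ (l / (2 * M + 1))) (tr M l) q.1, q.2) := by
    rintro ⟨a, c⟩ ⟨a', c'⟩ hh
    have h1 : mo M l a = mo M l a' := congrArg Prod.fst hh
    have h2 : c = c' := congrArg Prod.snd hh
    rw [mo_inj M l h1, h2]
  unfold mT
  rw [win_mo R (by omega), mv_inter_wA]
  have hf : (mv (Complex.I ^ (l / (2 * M + 1))) (tr M l) (T ∩ wA (H598.win M R 10))).Finite ↔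
      (T ∩ wA (H598.win M R 10)).Finite := finite_image_iff hinj.injOn
  by_cases hfin : (T ∩ wA (H598.win M R 10)).Finite
  · rw [if_pos (hf.2 hfin), if_pos hfin, pts_mv]
    exact mtr_mo hM hΘ (by omega) hl K
  · rw [if_neg fun hh => hfin (hf.1 hh), if_neg hfin, mul_zero]

/-- **Row N5**: the local means satisfy all the hypotheses of level 2. -/
theorem means (hM : 0 < M) {Θ : Dt → ℂ} (hΘ : Turn Θ) (hm : Measurable Θ) {K : ℝ} (hK : 0 ≤ K)
    (R : ℝ) : H598.Means M 10 R K (fun k => mT M Θ K R k) where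
  meas k _ := _root_.P148.H729.measurable_mT M hm K R k
  loc k _ T := _root_.P148.H729.mT_res M Θ K R k T
  bd k _ T := _root_.P148.H729.norm_mT_sq_le M Θ hK R k T
  eqv _ h hl T := eqv hM hΘ K R h hl T

end

end Vale.Agent.P148.R2.H826
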