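import Vale.Agent.P148.R2.F.Defs
import Vale.Agent.P148.R2.H592.Dom2

/-!
# P148, row OCONN: the faces at free sites are connected to the outer face

`HullTri.oconn` (general form), `Dom.oconn` (the field `oconn` of `F.Conv`).
-/

open Set Metric Topology Filter

namespace Vale.Agent.P148.R2.H592

namespace HullTri

variable {X : Set ℂ} {b : ZMod 3 → ℂ} (h : HullTri X b)
include h

/-- A function on the darts as a function on the pairs of neighbours. -/
noncomputable def pairF (u : Fc X b × ZMod 3 → ZMod 2) (x y : ℂ) : ZMod 2 := by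
  classical exact if hxy : nbr X x y then u (h.dart hxy) else 0

theorem pairF_dart (u : Fc X b × ZMod 3 → ZMod 2) (q : Fc X b × ZMod 3) :
    h.pairF u (tail q) (head q) = u q := by
  unfold pairF
  rw [dif_pos (h.nbr_th q)]
  congr 1
  exact h.th_inj (h.tail_dart _) (h.head_dart _)

theorem pairF_not (u : Fc X b × ZMod 3 → ZMod 2) {x y : ℂ} (hxy : ¬ nbr X x y) :
    h.pairF u x y = 0 := by
  unfold pairF
  rw [dif_neg hxy]

theorem pairF_Tl {u : Fc X b × ZMod 3 → ZMod 2} (hu : ∀ q, u (q.1, q.2 + 1) = u q)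
    {x y w : ℂ} (ht : Tl X b x y w) : h.pairF u x y = h.pairF u y w := by
  obtain ⟨q, rfl, rfl, rfl⟩ := h.exists_face_of_Tl ht
  rw [h.pairF_dart u, ← hu q, ← h.pairF_dart u (q.1, q.2 + 1), tail_next, head_next]

theorem sum_pairF (u : Fc X b × ZMod 3 → ZMod 2) [Fintype (Fc X b)] (v : ℂ) :
    ∑ w ∈ h.fin.toFinset, h.pairF u v w =
      ∑ q : Fc X b × ZMod 3, (open Classical in if tail q = v then u q else 0) := by
  classical
  have e : ∀ w ∈ h.fin.toFinset, h.pairF u v w =
      ∑ q : Fc X b × ZMod 3, (if tail q = v ∧ head q = w then u q else 0) := by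
    intro w _
    by_cases hvw : nbr X v w
    · obtain ⟨q, rfl, rfl⟩ := h.exists_dart hvw
      rw [h.pairF_dart, Finset.sum_eq_single q]
      · rw [if_pos ⟨rfl, rfl⟩]
      · intro r _ hr
        rw [if_neg]
        rintro ⟨h1, h2⟩
        exact hr (h.th_inj h1 h2)
      · intro h0; exact absurd (Finset.mem_univ _) h0
    · rw [h.pairF_not u hvw]
      symm
      refine Finset.sum_eq_zero fun q _ => ?_
      rw [if_neg]
      rintro ⟨rfl, rfl⟩
      exact hvw (h.nbr_th q)
  rw [Finset.sum_congr rfl e, Finset.sum_comm]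
  refine Finset.sum_congr rfl fun q _ => ?_
  by_cases hq : tail q = v
  · rw [if_pos hq, Finset.sum_eq_single (head q)]
    · rw [if_pos ⟨hq, rfl⟩]
    · intro w _ hw
      rw [if_neg]
      rintro ⟨-, h2⟩
      exact hw h2.symm
    · intro h0
      exact absurd (h.fin.mem_toFinset.2 (h.nbr_th q).2.1) h0
  · rw [if_neg hq]
    refine Finset.sum_eq_zero fun w _ => ?_
    rw [if_neg]
    rintro ⟨h1, -⟩
    exact hq h1

theorem sum_pairF' (u : Fc X b × ZMod 3 → ZMod 2) [Fintype (Fc X b)] (v : ℂ) :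
    ∑ w ∈ h.fin.toFinset, h.pairF u w v =
      ∑ q : Fc X b × ZMod 3, (open Classical in if head q = v then u q else 0) := by
  classical
  have e : ∀ w ∈ h.fin.toFinset, h.pairF u w v =
      ∑ q : Fc X b × ZMod 3, (if head q = v ∧ tail q = w then u q else 0) := by
    intro w _
    by_cases hvw : nbr X w v
    · obtain ⟨q, rfl, rfl⟩ := h.exists_dart hvw
      rw [h.pairF_dart, Finset.sum_eq_single q]
      · rw [if_pos ⟨rfl, rfl⟩]
      · intro r _ hr
        rw [if_neg]
        rintro ⟨h1, h2⟩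
        exact hr (h.th_inj h2 h1)
      · intro h0; exact absurd (Finset.mem_univ _) h0
    · rw [h.pairF_not u hvw]
      symm
      refine Finset.sum_eq_zero fun q _ => ?_
      rw [if_neg]
      rintro ⟨rfl, rfl⟩
      exact hvw (h.nbr_th q)
  rw [Finset.sum_congr rfl e, Finset.sum_comm]
  refine Finset.sum_congr rfl fun q _ => ?_
  by_cases hq : head q = v
  · rw [if_pos hq, Finset.sum_eq_single (tail q)]
    · rw [if_pos ⟨hq, rfl⟩]
    · intro w _ hw
      rw [if_neg]
      rintro ⟨-, h2⟩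
      exact hw h2.symm
    · intro h0
      exact absurd (h.fin.mem_toFinset.2 (h.nbr_th q).1) h0
  · rw [if_neg hq]
    refine Finset.sum_eq_zero fun w _ => ?_
    rw [if_neg]
    rintro ⟨h1, -⟩
    exact hq h1

/-- The jumps of a function of the faces round a vertex sum to `0`. -/
theorem sum_jump {u : Fc X b × ZMod 3 → ZMod 2} (hu : ∀ q, u (q.1, q.2 + 1) = u q) (v : ℂ) :
    ∑ w ∈ h.fin.toFinset, (h.pairF u v w + h.pairF u w v) = 0 := by
  classical
  have : Finite (Fc X b) := h.finite_Fc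
  have := Fintype.ofFinite (Fc X b)
  rw [Finset.sum_add_distrib, h.sum_pairF u v, h.sum_pairF' u v]
  have hu2 : ∀ q : Fc X b × ZMod 3, u (q.1, q.2 + 2) = u q := by
    intro q
    have h1 := hu (q.1, q.2 + 1)
    rw [hu q] at h1
    rw [← h1]
    show u (q.1, q.2 + 2) = u (q.1, q.2 + 1 + 1)
    rw [z3_11]
  have e : ∑ q : Fc X b × ZMod 3, (if tail q = v then u q else 0) =
      ∑ q : Fc X b × ZMod 3, (if head q = v then u q else 0) := by
    refine Fintype.sum_equiv (Equiv.prodCongr (Equiv.refl (Fc X b)) (Equiv.addRight (2 : ZMod 3)))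
      _ _ fun q => ?_
    show _ = if head (q.1, q.2 + 2) = v then u (q.1, q.2 + 2) else 0
    rw [head_next2, hu2]
  rw [e]
  have : ∀ x : ZMod 2, x + x = 0 := by decide
  exact this _

/-- **The faces at free sites are connected to the outer face** by steps which do not cross the
edges inside the three classes. -/
theorem oconn_gen {O : ZMod 3 → Set ℂ} (hd : Pairwise fun i j => Disjoint (O i) (O j))
    (hc : ∀ j, ConnIn X (O j)) {I : Set ℂ} (hI : ConnIn X I) (hIO : ∀ x ∈ I, ∀ j, x ∉ O j)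
    (hadj : ∀ j, ∃ x ∈ O j, ∃ y ∈ I, nbr X x y)
    {u : Fc X b × ZMod 3 → ZMod 2} (hu : ∀ q, u (q.1, q.2 + 1) = u q)
    (hur : ∀ q, (¬ ∃ j, tail q ∈ O j ∧ head q ∈ O j) → u (h.rv q) = u q)
    {o q : Fc X b × ZMod 3} (ho : ∀ j, ∃ k : ZMod 3, vc o.1 k ∈ O j) (hq : tail q ∈ I) :
    u q = u o := by
  classical
  set N0 : ℂ → ℂ → ZMod 2 := h.pairF u with hN0
  have huniq : ∀ {x i j}, x ∈ O i → x ∈ O j → i = j := fun {x i j} hi hj => by
    by_contra hne
    exact Set.disjoint_left.1 (hd hne) hi hj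
  have hself : ∀ x : ZMod 2, x + x = 0 := by decide
  have hself' : ∀ x y : ZMod 2, x + y = 0 → x = y := by decide
  -- the jumps
  have hjump : ∀ x y, (¬ ∃ j, x ∈ O j ∧ y ∈ O j) → N0 x y + N0 y x = 0 := by
    intro x y hxy
    by_cases hn : nbr X x y
    · obtain ⟨r, rfl, rfl⟩ := h.exists_dart hn
      have e1 : N0 (tail r) (head r) = u r := h.pairF_dart u r
      have e2 : N0 (head r) (tail r) = u (h.rv r) := by
        rw [← h.pairF_dart u (h.rv r), h.tail_rv, h.head_rv]
      rw [e1, e2, hur r hxy, hself]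
    · have hn' : ¬ nbr X y x := fun hh => hn (nbr_symm hh)
      have g1 : N0 x y = 0 := h.pairF_not u hn
      have g2 : N0 y x = 0 := h.pairF_not u hn'
      rw [g1, g2, add_zero]
  set z : ZMod 3 → ℂ → ℂ → ZMod 2 := fun j x y =>
    if x ∈ O j ∧ y ∈ O j then N0 x y + N0 y x else 0 with hz
  have hzs : ∀ j x y, z j x y = z j y x := by
    intro j x y
    simp only [hz]
    by_cases h1 : x ∈ O j ∧ y ∈ O j
    · rw [if_pos h1, if_pos h1.symm, add_comm]
    · rw [if_neg h1, if_neg fun h2 => h1 h2.symm]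
  have hzO : ∀ j x y, z j x y ≠ 0 → x ∈ O j ∧ y ∈ O j := by
    intro j x y hxy
    by_contra h1
    exact hxy (by simp only [hz]; rw [if_neg h1])
  have hznb : ∀ j x y, ¬ nbr X x y → z j x y = 0 := by
    intro j x y hxy
    have hxy' : ¬ nbr X y x := fun hh => hxy (nbr_symm hh)
    have g1 : N0 x y = 0 := h.pairF_not u hxy
    have g2 : N0 y x = 0 := h.pairF_not u hxy'
    simp only [hz]
    rw [g1, g2, add_zero, ite_self]
  have hcyc : ∀ j, ∀ v ∈ X, ∑ w ∈ h.fin.toFinset, z j v w = 0 := by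
    intro j v _
    by_cases hv : v ∈ O j
    · rw [← h.sum_jump hu v]
      refine Finset.sum_congr rfl fun w _ => ?_
      simp only [hz]
      by_cases hw : w ∈ O j
      · rw [if_pos ⟨hv, hw⟩]
      · rw [if_neg fun h1 => hw h1.2]
        symm
        refine hjump v w ?_
        rintro ⟨i, h1, h2⟩
        rw [huniq hv h1] at hw
        exact hw h2
    · refine Finset.sum_eq_zero fun w _ => ?_
      simp only [hz]
      rw [if_neg fun h1 => hv h1.1]
  choose N hN using fun j => h.homology (hzs j) (hznb j) (hcyc j)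
  -- the sum
  have hM : Fills X b (fun x y => N0 x y + ∑ j, N j x y) (fun _ _ => 0) := by
    have h0 : Fills X b N0 (fun x y => N0 x y + N0 y x) :=
      ⟨fun x y w hw => h.pairF_Tl hu hw, fun x y _ => rfl⟩
    refine (h0.add (Fills.sum Finset.univ fun j _ => hN j)).congr fun x y _ => ?_
    by_cases hxy : ∃ j, x ∈ O j ∧ y ∈ O j
    · obtain ⟨j, hx, hy⟩ := hxy
      rw [Finset.sum_eq_single j]
      · simp only [hz]
        rw [if_pos ⟨hx, hy⟩, hself]
      · intro i _ hij
        simp only [hz]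
        rw [if_neg fun h1 => hij (huniq h1.1 hx)]
      · intro h0; exact absurd (Finset.mem_univ _) h0
    · rw [hjump x y hxy, zero_add]
      refine Finset.sum_eq_zero fun j _ => ?_
      simp only [hz]
      rw [if_neg fun h1 => hxy ⟨j, h1⟩]
  have hXc : ConnIn X X := ⟨subset_rfl, fun x hx y hy => Relation.ReflTransGen.mono
    (fun a b (h : nbr X a b) => ⟨h, h.1, h.2.1⟩) _ _ (graph_connected h.fin hx hy)⟩
  have hMc := h.fills_const hM hXc (fun _ _ h0 => absurd rfl h0) (h.nbr_th q).1 (h.nbr_th o).1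
    (h.nbr_th q) (h.nbr_th o)
  -- each `N j` takes the same value at `q` and at `o`
  have hj : ∀ j, N j (tail q) (head q) = N j (tail o) (head o) := by
    intro j
    -- a class different from `j` on the face of `o`
    obtain ⟨i, hij⟩ : ∃ i : ZMod 3, i ≠ j := ⟨j + 1, by revert j; decide⟩
    obtain ⟨k, hk⟩ := ho i
    obtain ⟨x, hx, y, hy, hxy⟩ := hadj i
    have hzI : ∀ a c, z j a c ≠ 0 → a ∉ I := fun a c hac ha => hIO a ha j (hzO j a c hac).1
    have hzOi : ∀ a c, z j a c ≠ 0 → a ∉ O i := fun a c hac ha =>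
      hij (huniq ha (hzO j a c hac).1)
    have e1 : N j (tail q) (head q) = N j y x :=
      h.fills_const (hN j) hI hzI hq hy (h.nbr_th q) (nbr_symm hxy)
    have e2 : N j y x = N j x y := by
      apply hself'
      rw [(hN j).2 y x (nbr_symm hxy)]
      by_contra hne
      exact hzI y x hne hy
    have hno : nbr X (vc o.1 k) (vc o.1 (k + 1)) := h.Tl_nbr (vc_Tl o.1 k)
    have e3 : N j x y = N j (vc o.1 k) (vc o.1 (k + 1)) :=
      h.fills_const (hN j) (hc i) hzOi hx hk hxy hno
    -- the values round a face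
    have hface : ∀ l : ZMod 3, N j (vc o.1 l) (vc o.1 (l + 1)) =
        N j (vc o.1 (l + 1)) (vc o.1 (l + 2)) := fun l => (hN j).1 _ _ _ (vc_Tl o.1 l)
    have hface2 : ∀ l m : ZMod 3, N j (vc o.1 l) (vc o.1 (l + 1)) =
        N j (vc o.1 m) (vc o.1 (m + 1)) := by
      have s1 : ∀ l : ZMod 3, N j (vc o.1 l) (vc o.1 (l + 1)) =
          N j (vc o.1 (l + 1)) (vc o.1 (l + 1 + 1)) := fun l => by
        rw [z3_11]; exact hface l
      intro l m
      have hm : m = l ∨ m = l + 1 ∨ m = l + 1 + 1 := by revert l m; decide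
      rcases hm with rfl | rfl | rfl
      · rfl
      · exact s1 l
      · rw [s1 l, s1 (l + 1)]
    have e4 : N j (vc o.1 k) (vc o.1 (k + 1)) = N j (tail o) (head o) := by
      have := hface2 k (o.2 + 1)
      rw [z3_11] at this
      exact this
    rw [e1, e2, e3, e4]
  have e1 : N0 (tail q) (head q) = u q := h.pairF_dart u q
  have e2 : N0 (tail o) (head o) = u o := h.pairF_dart u o
  simp only [e1, e2] at hMc
  rw [Finset.sum_congr rfl fun j _ => hj j] at hMc
  exact add_right_cancel hMc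

end HullTri

end Vale.Agent.P148.R2.H592

namespace Vale.Agent.P148.R2.H826

open Vale.Agent.P148.R2.H592

/-- **Row OCONN**: the field `oconn` of `F.Conv`. -/
theorem oconn (D : F.Dom) (hI : ConnIn D.X {x | D.Free x})
    (hadj : ∀ j, ∃ x ∈ D.O j, ∃ y, D.Free y ∧ nbr D.X x y) :
    ∀ q : D.Dt, D.Free (tail q) → Relation.EqvGen D.T.NLStep D.o q := by
  classical
  intro q hq
  set u : D.Dt → ZMod 2 := fun q => if Relation.EqvGen D.T.NLStep D.o q then 1 else 0 with hu
  have hstep : ∀ f g, D.T.NLStep f g → u g = u f := by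
    intro f g hfg
    have : Relation.EqvGen D.T.NLStep D.o g ↔ Relation.EqvGen D.T.NLStep D.o f :=
      ⟨fun h1 => h1.trans _ _ _ (Relation.EqvGen.symm _ _ (Relation.EqvGen.rel _ _ hfg)),
        fun h1 => h1.trans _ _ _ (Relation.EqvGen.rel _ _ hfg)⟩
    simp only [hu, this]
  have h1 : ∀ q : D.Dt, u (q.1, q.2 + 1) = u q := fun q => hstep q _ (Or.inl rfl)
  have h2 : ∀ q : D.Dt, (¬ ∃ j, tail q ∈ D.O j ∧ head q ∈ D.O j) → u (D.hull.rv q) = u q := by
    intro q hq
    refine hstep q _ (Or.inr ⟨?_, rfl⟩)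
    show cmap D.X D.O (tail q) ≠ cmap D.X D.O (tail (D.hull.rv q))
    rw [D.hull.tail_rv]
    intro he
    have hn := D.hull.nbr_th q
    cases hv : cmap D.X D.O (tail q) with
    | inl j => exact hq ⟨j, mem_of_cmap hn.1 hv, mem_of_cmap hn.2.1 (he.symm.trans hv)⟩
    | inr v =>
      have e1 := eq_of_cmap hv
      have e2 := eq_of_cmap (he.symm.trans hv)
      exact hn.2.2.1 (e1.trans e2.symm)
  have h3 : ∀ j, ∃ k : ZMod 3, vc D.o.1 k ∈ D.O j := by
    intro j
    have hj : j = 0 ∨ j = 1 ∨ j = 2 := by revert j; decide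
    rcases hj with rfl | rfl | rfl
    · exact ⟨_, D.head_o⟩
    · rcases D.tail_o with h4 | h4
      · exact ⟨_, h4.1⟩
      · exact ⟨_, h4.2⟩
    · rcases D.tail_o with h4 | h4
      · exact ⟨_, h4.2⟩
      · exact ⟨_, h4.1⟩
  have hadj' : ∀ j, ∃ x ∈ D.O j, ∃ y ∈ {x | D.Free x}, nbr D.X x y := hadj
  have h4 : u q = u D.o := D.hull.oconn_gen D.disj D.conn hI (fun x hx j => hx.2 j) hadj' h1 h2
    h3 hq
  have h5 : u D.o = 1 := by
    simp only [hu]
    rw [if_pos (Relation.EqvGen.refl _)]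
  rw [h5] at h4
  by_contra hne
  simp only [hu] at h4
  rw [if_neg hne] at h4
  exact absurd h4 (by decide)

end Vale.Agent.P148.R2.H826
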