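import Vale.Agent.P148.R2.H184.L2

/-!
# Equivariance of the Delaunay objects and of the local loops under similarities (P148, row EQ)
-/

open Set Metric Function
open scoped ENNReal

namespace Vale.Agent.P148.R2.H826

open H592 H184

/-- The direct similarity `z ↦ a z + b`. -/
def sm (a b z : ℂ) : ℂ := a * z + b

section
variable {a b : ℂ}

theorem sm_inj (ha : a ≠ 0) : Injective (sm a b) := by
  intro z w h
  unfold sm at h
  exact mul_left_cancel₀ ha (add_right_cancel h)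

theorem sm_eq_iff (ha : a ≠ 0) {z w : ℂ} : sm a b z = sm a b w ↔ z = w := (sm_inj ha).eq_iff

/-- The inverse similarity. -/
theorem sm_sm_inv (ha : a ≠ 0) (z : ℂ) : sm a b (sm a⁻¹ (-(a⁻¹ * b)) z) = z := by
  unfold sm
  field_simp
  ring

theorem sm_inv_sm (ha : a ≠ 0) (z : ℂ) : sm a⁻¹ (-(a⁻¹ * b)) (sm a b z) = z := by
  unfold sm
  field_simp
  ring

theorem sm_surj (ha : a ≠ 0) : Surjective (sm a b) := fun z => ⟨_, sm_sm_inv ha z⟩

theorem mem_sm (ha : a ≠ 0) {X : Set ℂ} {z : ℂ} : sm a b z ∈ sm a b '' X ↔ z ∈ X :=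
  (sm_inj ha).mem_set_image

theorem dist_sm (z w : ℂ) : dist (sm a b z) (sm a b w) = ‖a‖ * dist z w := by
  unfold sm
  rw [Complex.dist_eq, Complex.dist_eq, ← norm_mul]
  congr 1
  ring

theorem cr_sm (u v w : ℂ) : cr (sm a b u) (sm a b v) (sm a b w) = Complex.normSq a * cr u v w := by
  unfold sm cr
  simp only [Complex.add_re, Complex.add_im, Complex.mul_re, Complex.mul_im, Complex.normSq_apply]
  ring

theorem cr_sm_pos (ha : a ≠ 0) {u v w : ℂ} :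
    0 < cr (sm a b u) (sm a b v) (sm a b w) ↔ 0 < cr u v w := by
  rw [cr_sm]
  exact mul_pos_iff_of_pos_left (Complex.normSq_pos.2 ha)

theorem pw_sm (v w z : ℂ) : pw (sm a b v) (sm a b w) (sm a b z) = Complex.normSq a * pw v w z := by
  unfold sm pw
  have h1 : a * z + b - (a * w + b) = a * (z - w) := by ring
  have h2 : a * z + b - (a * v + b) = a * (z - v) := by ring
  rw [h1, h2, Complex.normSq_mul, Complex.normSq_mul]
  ring

variable {X Q : Set ℂ}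

theorem mem_vcell_sm (ha : a ≠ 0) {v z : ℂ} :
    sm a b z ∈ vcell (sm a b '' X) (sm a b v) ↔ z ∈ vcell X v := by
  have h0 : 0 < ‖a‖ := norm_pos_iff.2 ha
  constructor
  · intro h w hw
    have := h (sm a b w) (mem_image_of_mem _ hw)
    rw [dist_sm, dist_sm] at this
    exact le_of_mul_le_mul_left this h0
  · rintro h _ ⟨w, hw, rfl⟩
    rw [dist_sm, dist_sm]
    exact mul_le_mul_of_nonneg_left (h w hw) h0.le

theorem vcell_sm (ha : a ≠ 0) (v : ℂ) : vcell (sm a b '' X) (sm a b v) = sm a b '' vcell X v := by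
  ext z
  obtain ⟨z, rfl⟩ := sm_surj (b := b) ha z
  rw [mem_vcell_sm ha, mem_sm ha]

theorem inter_vcell_sm (ha : a ≠ 0) {v w : ℂ} :
    (vcell (sm a b '' X) (sm a b v) ∩ vcell (sm a b '' X) (sm a b w)).Nonempty ↔
      (vcell X v ∩ vcell X w).Nonempty := by
  rw [vcell_sm ha, vcell_sm ha, ← image_inter (sm_inj ha), image_nonempty]

theorem near_sm (ha : a ≠ 0) (z : ℂ) : near (sm a b '' X) (sm a b z) = sm a b '' near X z := by
  ext v
  obtain ⟨v, rfl⟩ := sm_surj (b := b) ha v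
  rw [mem_sm ha]
  unfold near
  rw [mem_sep_iff, mem_sep_iff, mem_sm ha, mem_vcell_sm ha]

theorem nbr_sm (ha : a ≠ 0) {v w : ℂ} : nbr (sm a b '' X) (sm a b v) (sm a b w) ↔ nbr X v w := by
  unfold nbr
  rw [mem_sm ha, mem_sm ha, (sm_inj ha).ne_iff, inter_vcell_sm ha]

theorem tri_sm (ha : a ≠ 0) {u v w : ℂ} :
    tri (sm a b '' X) (sm a b u) (sm a b v) (sm a b w) ↔ tri X u v w := by
  unfold tri
  rw [mem_sm ha, mem_sm ha, mem_sm ha, (sm_inj ha).ne_iff, (sm_inj ha).ne_iff, (sm_inj ha).ne_iff,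
    vcell_sm ha, vcell_sm ha, vcell_sm ha, ← image_inter (sm_inj ha), ← image_inter (sm_inj ha),
    image_nonempty]

theorem face_sm (ha : a ≠ 0) {u v w : ℂ} :
    face (sm a b '' X) (sm a b u) (sm a b v) (sm a b w) ↔ face X u v w := by
  unfold face
  rw [tri_sm ha, cr_sm_pos ha]

theorem Three.sm (ha : a ≠ 0) (h : Three X) : Three (sm a b '' X) := by
  intro z p q r s hp hq hr hs zp zq zr zs h1 h2 h3
  obtain ⟨z, rfl⟩ := sm_surj (b := b) ha z
  obtain ⟨p, hp, rfl⟩ := hp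
  obtain ⟨q, hq, rfl⟩ := hq
  obtain ⟨r, hr, rfl⟩ := hr
  obtain ⟨s, hs, rfl⟩ := hs
  rw [mem_vcell_sm ha] at zp zq zr zs
  rw [(sm_inj ha).ne_iff] at h1 h2 h3
  rw [sm_eq_iff ha, sm_eq_iff ha, sm_eq_iff ha]
  exact h z p q r s hp hq hr hs zp zq zr zs h1 h2 h3

theorem image_image_inv (ha : a ≠ 0) (X : Set ℂ) :
    sm a⁻¹ (-(a⁻¹ * b)) '' (sm a b '' X) = X := by
  rw [image_image]
  simp only [sm_inv_sm ha, image_id']

theorem Three_sm (ha : a ≠ 0) : Three (sm a b '' X) ↔ Three X := by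
  refine ⟨fun h => ?_, fun h => Three.sm ha h⟩
  have := Three.sm (b := -(a⁻¹ * b)) (inv_ne_zero ha) h
  rwa [image_image_inv ha] at this

theorem HullTri.sm (ha : a ≠ 0) {β : ZMod 3 → ℂ} (h : HullTri X β) :
    HullTri (sm a b '' X) (fun j => sm a b (β j)) := by
  refine ⟨h.fin.image _, Three.sm ha h.three, fun j => mem_image_of_mem _ (h.mem j),
    (cr_sm_pos ha).2 h.ccw, ?_⟩
  rintro _ ⟨x, hx, rfl⟩ hne j
  exact (cr_sm_pos ha).2 (h.inside x hx (fun k hk => hne k (by rw [hk])) j)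

theorem Tl_sm (ha : a ≠ 0) {β : ZMod 3 → ℂ} {u v w : ℂ} :
    Tl (sm a b '' X) (fun j => sm a b (β j)) (sm a b u) (sm a b v) (sm a b w) ↔ Tl X β u v w := by
  unfold Tl
  simp only [face_sm ha, sm_eq_iff ha]

/-! ## Darts -/

/-- The similarity on darts. -/
def sd (a b : ℂ) (d : Dt) : Dt := (sm a b d.1, sm a b d.2.1, sm a b d.2.2)

theorem sd_inj (ha : a ≠ 0) : Injective (sd a b) := by
  rintro ⟨x, y, z⟩ ⟨x', y', z'⟩ h
  simp only [sd, Prod.mk.injEq, sm_eq_iff ha] at h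
  obtain ⟨rfl, rfl, rfl⟩ := h
  rfl

theorem sd_sd_inv (ha : a ≠ 0) (d : Dt) : sd a b (sd a⁻¹ (-(a⁻¹ * b)) d) = d := by
  simp only [sd, sm_sm_inv ha, Prod.mk.eta]

theorem sd_inv_sd (ha : a ≠ 0) (d : Dt) : sd a⁻¹ (-(a⁻¹ * b)) (sd a b d) = d := by
  simp only [sd, sm_inv_sm ha, Prod.mk.eta]

/-- The similarity as a permutation of the darts. -/
noncomputable def sdE (a b : ℂ) (ha : a ≠ 0) : Dt ≃ Dt :=
  ⟨sd a b, sd a⁻¹ (-(a⁻¹ * b)), sd_inv_sd ha, sd_sd_inv ha⟩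

theorem sd_surj (ha : a ≠ 0) : Surjective (sd a b) := (sdE a b ha).surjective

theorem sd_rt (d : Dt) : sd a b (rt d) = rt (sd a b d) := rfl

theorem cc_sd (ha : a ≠ 0) {d : Dt} (h : cr d.1 d.2.1 d.2.2 ≠ 0) :
    cc (sd a b d) = sm a b (cc d) := by
  symm
  apply cc_unique
  · simp only [sd, cr_sm]
    exact mul_ne_zero (Complex.normSq_pos.2 ha).ne' h
  · simp only [sd, dist_sm]
    rw [dist_cc1 h]
  · simp only [sd, dist_sm]
    rw [dist_cc2 h]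

theorem closedBall_sm (ha : a ≠ 0) (z : ℂ) (r : ℝ) :
    closedBall (sm a b z) (‖a‖ * r) = sm a b '' closedBall z r := by
  ext w
  obtain ⟨w, rfl⟩ := sm_surj (b := b) ha w
  rw [mem_sm ha, mem_closedBall, mem_closedBall, dist_sm]
  exact mul_le_mul_iff_right₀ (norm_pos_iff.2 ha)

theorem ball_sm (ha : a ≠ 0) (z : ℂ) (r : ℝ) :
    ball (sm a b z) (‖a‖ * r) = sm a b '' ball z r := by
  ext w
  obtain ⟨w, rfl⟩ := sm_surj (b := b) ha w
  rw [mem_sm ha, mem_ball, mem_ball, dist_sm]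
  exact mul_lt_mul_iff_right₀ (norm_pos_iff.2 ha)

theorem LF_sd (ha : a ≠ 0) {d : Dt} : LF (sm a b '' X) (sm a b '' Q) (sd a b d) ↔ LF X Q d := by
  have h0 : 0 < ‖a‖ := norm_pos_iff.2 ha
  unfold LF
  have e1 : (0 < cr (sd a b d).1 (sd a b d).2.1 (sd a b d).2.2) ↔ 0 < cr d.1 d.2.1 d.2.2 :=
    cr_sm_pos ha
  rw [e1]
  simp only [sd, mem_sm ha]
  refine and_congr_right fun _ => and_congr_right fun hcr => ?_
  have e2 : cc (sm a b d.1, sm a b d.2.1, sm a b d.2.2) = sm a b (cc d) := cc_sd ha hcr.ne'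
  rw [e2, dist_sm, closedBall_sm ha, image_subset_image_iff (sm_inj ha)]
  refine and_congr_right fun _ => ?_
  rw [forall_mem_image]
  refine forall₂_congr fun x _ => ?_
  rw [dist_sm]
  exact mul_le_mul_iff_right₀ h0

/-! ## Colours, strands, classes -/

variable {c c' : ℂ → Bool}

/-- The colouring `c'` is the transport of `c`. -/
def Tr (a b : ℂ) (X : Set ℂ) (c c' : ℂ → Bool) : Prop := ∀ x ∈ X, c' (sm a b x) = c x

theorem Nx_sd (ha : a ≠ 0) (hc : Tr a b X c c') {d d' : Dt} (hd : LF X Q d) :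
    Nx c' (sd a b d) (sd a b d') ↔ Nx c d d' := by
  unfold Nx
  have e1 : c' (sd a b d).1 = c d.1 := hc _ hd.1.1
  have e2 : c' (sd a b d).2.1 = c d.2.1 := hc _ hd.1.2.1
  have e3 : c' (sd a b d).2.2 = c d.2.2 := hc _ hd.1.2.2
  rw [e2]
  simp only [e1, e3]
  refine and_congr_right fun _ => ?_
  by_cases h : c d.2.2 = c d.1
  · rw [if_pos h, if_pos h, if_pos h, if_pos h]
    simp only [sd, sm_eq_iff ha]
  · rw [if_neg h, if_neg h, if_neg h, if_neg h]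
    simp only [sd, sm_eq_iff ha]

theorem Mn_sd (hc : Tr a b X c c') {d : Dt} (hd : LF X Q d) : Mn c' (sd a b d) ↔ Mn c d := by
  unfold Mn
  simp only [sd]
  rw [hc _ hd.1.1, hc _ hd.1.2.1, hc _ hd.1.2.2]

theorem Lp_sd (ha : a ≠ 0) (hc : Tr a b X c c') {n : ℕ} {f : ℕ → Dt} :
    Lp (sm a b '' X) (sm a b '' Q) c' n (fun i => sd a b (f i)) ↔ Lp X Q c n f := by
  constructor
  · intro h
    have hl : ∀ i, LF X Q (f i) := fun i => (LF_sd ha).1 (h.lf i)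
    exact ⟨h.pos, hl, fun i => (Nx_sd ha hc (hl i)).1 (h.nx i), fun i => sd_inj ha (h.per i),
      fun k h1 h2 h3 => h.min k h1 h2 (by rw [h3])⟩
  · intro h
    exact ⟨h.pos, fun i => (LF_sd ha).2 (h.lf i), fun i => (Nx_sd ha hc (h.lf i)).2 (h.nx i),
      fun i => by rw [h.per], fun k h1 h2 h3 => h.min k h1 h2 (sd_inj ha h3)⟩

theorem Rl_sd (ha : a ≠ 0) (hc : Tr a b X c c') {d e : Dt} :
    Rl (sm a b '' X) (sm a b '' Q) c' (sd a b d) (sd a b e) ↔ Rl X Q c d e := by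
  constructor
  · rintro ⟨h1, h2, n, m, f, h3, h4, h5, h6, h7⟩
    obtain ⟨g, rfl⟩ : ∃ g : ℕ → Dt, f = fun i => sd a b (g i) :=
      ⟨fun i => sd a⁻¹ (-(a⁻¹ * b)) (f i), by funext i; rw [sd_sd_inv ha]⟩
    have h3' := (Lp_sd ha hc).1 h3
    have h5' := sd_inj ha h5
    have h6' := sd_inj ha h6
    refine ⟨(Mn_sd hc (h5' ▸ h3'.lf 0)).1 h1, (Mn_sd hc (h6' ▸ h3'.lf m)).1 h2, n, m, g, h3', h4,
      h5', h6', fun i j a1 a2 a3 a4 he => h7 i j a1 a2 a3 a4 ?_⟩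
    simp only [sd, he]
  · rintro ⟨h1, h2, n, m, f, h3, h4, h5, h6, h7⟩
    refine ⟨(Mn_sd hc (h5 ▸ h3.lf 0)).2 h1, (Mn_sd hc (h6 ▸ h3.lf m)).2 h2, n, m,
      fun i => sd a b (f i), (Lp_sd ha hc).2 h3, h4, congrArg _ h5, congrArg _ h6,
      fun i j a1 a2 a3 a4 he => h7 i j a1 a2 a3 a4 ?_⟩
    exact sm_inj ha he

theorem InL_sd (ha : a ≠ 0) (hc : Tr a b X c c') {d : Dt} :
    InL (sm a b '' X) (sm a b '' Q) c' (sd a b d) ↔ InL X Q c d := by
  constructor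
  · rintro ⟨n, f, h1, h2⟩
    obtain ⟨g, rfl⟩ : ∃ g : ℕ → Dt, f = fun i => sd a b (g i) :=
      ⟨fun i => sd a⁻¹ (-(a⁻¹ * b)) (f i), by funext i; rw [sd_sd_inv ha]⟩
    exact ⟨n, g, (Lp_sd ha hc).1 h1, sd_inj ha h2⟩
  · rintro ⟨n, f, h1, h2⟩
    exact ⟨n, fun i => sd a b (f i), (Lp_sd ha hc).2 h1, congrArg _ h2⟩

theorem cl_sd (ha : a ≠ 0) (hc : Tr a b X c c') (d : Dt) :
    cl (sm a b '' X) (sm a b '' Q) c' (sd a b d) = sd a b '' cl X Q c d := by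
  ext e
  obtain ⟨e, rfl⟩ := sd_surj (b := b) ha e
  rw [(sd_inj ha).mem_set_image]
  exact Rl_sd ha hc

theorem W_sd (ha : a ≠ 0) (hc : Tr a b X c c') (Θ : Dt → ℂ) (d : Dt) :
    W (sm a b '' X) (sm a b '' Q) c' Θ (sd a b d) = W X Q c (fun e => Θ (sd a b e)) d := by
  unfold W
  rw [cl_sd ha hc, finsum_mem_image ((sd_inj ha).injOn)]

theorem gg_sd (ha : a ≠ 0) (hc : Tr a b X c c') (Θ : Dt → ℂ) (d : Dt) :
    gg (sm a b '' X) (sm a b '' Q) c' Θ (sd a b d) = gg X Q c (fun e => Θ (sd a b e)) d := by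
  unfold gg
  rw [W_sd ha hc, cl_sd ha hc, Set.ncard_image_of_injective _ (sd_inj ha)]

theorem SQ_sd (ha : a ≠ 0) (hc : Tr a b X c c') (Θ : Dt → ℂ) :
    SQ (sm a b '' X) (sm a b '' Q) c' Θ = SQ X Q c (fun e => Θ (sd a b e)) := by
  unfold SQ
  rw [← (sdE a b ha).tsum_eq]
  exact tsum_congr fun d => by rw [show (sdE a b ha) d = sd a b d from rfl, gg_sd ha hc]

theorem MQ_sd (ha : a ≠ 0) (hc : Tr a b X c c') {ι : Type*} (Q' : ι → Set ℂ) (Θ : Dt → ℂ) :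
    MQ (sm a b '' X) (sm a b '' Q) (fun i => sm a b '' Q' i) c' Θ =
      MQ X Q Q' c (fun e => Θ (sd a b e)) := by
  classical
  unfold MQ
  rw [← (sdE a b ha).tsum_eq]
  refine tsum_congr fun d => ?_
  rw [show (sdE a b ha) d = sd a b d from rfl, gg_sd ha hc]
  simp only [InL_sd ha hc]

end

end Vale.Agent.P148.R2.H826
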