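import Vale.Agent.P148.R2.H938.CombP
import Vale.Agent.P148.R2.H826.Eq1

/-!
# P148, row N5, level 2: equivariance of the comb

The rigid motion `mo M l` takes the gate `j` of side `0` to the gate `l + j` (on the side of `l`).
Hubs, rims, corridors, hub events, corridor events and the quenched probabilities are equivariant.
-/

open Set Relation Metric Function

namespace Vale.Agent.P148.R2.H826

open Vale.Agent.P148.R2.N
open Vale.Agent.P148.R2.H678
open Vale.Agent.P148.R2.H592 (nbr)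
open Vale.Agent.P148.R2.H995 (nsup TCr Box Circ Rc Chain)
open Vale.Agent.P148.R2.H938 (HubEv CorEv HBx CBx VB LB UB HCirc)
open Vale.Agent.P148.R2.H847 (qpr)

/-! ### abstract part -/

section Abstract

variable {α β : Type*} {φ : α → β} {r : α → α → Prop} {r' : β → β → Prop} {S C : Set α}

theorem core_image (hφ : Injective φ) (hs : Surjective φ) (hr : ∀ a b, r' (φ a) (φ b) ↔ r a b) :
    core r' (φ '' S) (φ '' C) = φ '' core r S C := by
  ext v
  obtain ⟨a, rfl⟩ := hs v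
  rw [hφ.mem_set_image]
  constructor
  · rintro ⟨s, ⟨s0, hs0, rfl⟩, h⟩
    refine ⟨s0, hs0, ?_⟩
    have key : ∀ w, ReflTransGen (fun a b => r' a b ∧ b ∈ φ '' C) (φ s0) w →
        ∀ a, w = φ a → ReflTransGen (fun a b => r a b ∧ b ∈ C) s0 a := by
      intro w hw
      induction hw with
      | refl => intro a ha; rw [hφ ha]
      | tail _ hbc ih =>
        rename_i b c _
        intro a ha
        obtain ⟨b', rfl⟩ := hs b
        subst ha
        exact (ih b' rfl).tail ⟨(hr _ _).1 hbc.1, (hφ.mem_set_image).1 hbc.2⟩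
    exact key _ h a rfl
  · rintro ⟨s, hs', h⟩
    refine ⟨φ s, mem_image_of_mem _ hs', ?_⟩
    have h' := ReflTransGen.lift (r := fun a b => r a b ∧ b ∈ C)
      (p := fun a b => r' a b ∧ b ∈ φ '' C) φ
      (fun a b hab => ⟨(hr a b).2 hab.1, mem_image_of_mem _ hab.2⟩) _ _ h
    exact h'

theorem hub_image (hφ : Injective φ) (hs : Surjective φ) (hr : ∀ a b, r' (φ a) (φ b) ↔ r a b) :
    hub r' (φ '' S) (φ '' C) = φ '' hub r S C := by
  unfold hub
  rw [core_image hφ hs hr, image_union]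
  congr 1
  ext v
  obtain ⟨a, rfl⟩ := hs v
  rw [hφ.mem_set_image]
  constructor
  · rintro ⟨u, ⟨u0, hu0, rfl⟩, h⟩
    exact ⟨u0, hu0, (hr _ _).1 h⟩
  · rintro ⟨u, hu, h⟩
    exact ⟨φ u, mem_image_of_mem _ hu, (hr _ _).2 h⟩

theorem rim_image (hφ : Injective φ) (hs : Surjective φ) (hr : ∀ a b, r' (φ a) (φ b) ↔ r a b) :
    rim r' (φ '' S) (φ '' C) = φ '' rim r S C := by
  unfold rim
  rw [hub_image hφ hs hr, core_image hφ hs hr, image_sdiff hφ]

end Abstract

theorem qpr_image {φ : ℂ → ℂ} (hφ : Injective φ) (N : Set ℂ) (Q : Set ℂ → Prop) :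
    qpr (φ '' N) Q = qpr N fun W => Q (φ '' W) := by
  unfold qpr
  rw [ncard_image_of_injective N hφ]
  congr 2
  have : {W | W ⊆ φ '' N ∧ Q W} = (fun W => φ '' W) '' {W | W ⊆ N ∧ Q (φ '' W)} := by
    ext W
    constructor
    · rintro ⟨h1, h2⟩
      obtain ⟨V, hV, rfl⟩ := subset_image_iff.1 h1
      exact ⟨V, ⟨hV, h2⟩, rfl⟩
    · rintro ⟨V, ⟨hV, h2⟩, rfl⟩
      exact ⟨image_mono hV, h2⟩
  rw [this, ncard_image_of_injective _ hφ.image_injective]

/-! ### rotations by multiples of a right angle -/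

theorem I_pow_ne (s : ℕ) : (Complex.I : ℂ) ^ s ≠ 0 := pow_ne_zero _ Complex.I_ne_zero

theorem nsup_I (z : ℂ) : nsup (Complex.I * z) = nsup z := by
  unfold nsup
  simp only [Complex.mul_re, Complex.mul_im, Complex.I_re, Complex.I_im, zero_mul, one_mul,
    zero_sub, zero_add]
  rw [abs_neg, max_comm]

theorem nsup_I_pow (s : ℕ) (z : ℂ) : nsup (Complex.I ^ s * z) = nsup z := by
  induction s with
  | zero => simp
  | succ s ih => rw [pow_succ', mul_assoc, nsup_I, ih]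

theorem conj_I_pow_mul (s : ℕ) : (starRingEnd ℂ) (Complex.I ^ s) * Complex.I ^ s = 1 := by
  rw [map_pow, Complex.conj_I, ← mul_pow]
  simp

theorem norm_I_pow (s : ℕ) : ‖(Complex.I : ℂ) ^ s‖ = 1 := by
  rw [norm_pow, Complex.norm_I, one_pow]

section Motion

variable {s : ℕ} {b : ℂ} {X W : Set ℂ}

theorem chain_sm {K : Set ℂ} {u w : ℂ} :
    Chain (nbr (sm (Complex.I ^ s) b '' X)) (sm (Complex.I ^ s) b '' K) (sm (Complex.I ^ s) b u)
      (sm (Complex.I ^ s) b w) ↔ Chain (nbr X) K u w := by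
  have ha := I_pow_ne s
  constructor
  · rintro ⟨n, v, h1, h2, h3, h4⟩
    choose v' hv' using fun i => sm_surj (b := b) ha (v i)
    refine ⟨n, v', fun i hi => ?_, fun i hi => ?_, ?_, ?_⟩
    · have := h1 i hi
      rw [← hv' i, ← hv' (i + 1)] at this
      exact (nbr_sm ha).1 this
    · have := h2 i hi
      rw [← hv' i] at this
      exact (mem_sm ha).1 this
    · exact sm_inj ha ((hv' 0).trans h3)
    · exact sm_inj ha ((hv' n).trans h4)
  · rintro ⟨n, v, h1, h2, rfl, rfl⟩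
    exact ⟨n, fun i => sm (Complex.I ^ s) b (v i), fun i hi => (nbr_sm ha).2 (h1 i hi),
      fun i hi => (mem_sm ha).2 (h2 i hi), rfl, rfl⟩

theorem sm_sub (z w : ℂ) : sm (Complex.I ^ s) b z - sm (Complex.I ^ s) b w =
    Complex.I ^ s * (z - w) := by
  unfold sm; ring

theorem turn_mul (ι v p : ℂ) : (starRingEnd ℂ) (Complex.I ^ s) * ι *
    (sm (Complex.I ^ s) b v - sm (Complex.I ^ s) b p) = ι * (v - p) := by
  rw [sm_sub]
  calc (starRingEnd ℂ) (Complex.I ^ s) * ι * (Complex.I ^ s * (v - p)) =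
      ((starRingEnd ℂ) (Complex.I ^ s) * Complex.I ^ s) * (ι * (v - p)) := by ring
    _ = ι * (v - p) := by rw [conj_I_pow_mul, one_mul]

theorem tcr_sm {ι p : ℂ} {x0 x1 y0 y1 t : ℝ} :
    TCr (sm (Complex.I ^ s) b '' X) (sm (Complex.I ^ s) b '' W)
      ((starRingEnd ℂ) (Complex.I ^ s) * ι) (sm (Complex.I ^ s) b p) x0 x1 y0 y1 t ↔
    TCr X W ι p x0 x1 y0 y1 t := by
  have ha := I_pow_ne s
  constructor
  · rintro ⟨n, v, h1, h2, h3, h4⟩
    choose v' hv' using fun i => sm_surj (b := b) ha (v i)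
    refine ⟨n, v', fun i hi => ?_, fun i hi => ?_, ?_, ?_⟩
    · have := h1 i hi
      rw [← hv' i, ← hv' (i + 1)] at this
      exact (nbr_sm ha).1 this
    · have := h2 i hi
      rw [← hv' i, turn_mul, mem_sm ha] at this
      exact this
    · rw [← hv' 0, turn_mul] at h3
      exact h3
    · rw [← hv' n, turn_mul] at h4
      exact h4
  · rintro ⟨n, v, h1, h2, h3, h4⟩
    refine ⟨n, fun i => sm (Complex.I ^ s) b (v i), fun i hi => (nbr_sm ha).2 (h1 i hi),
      fun i hi => ?_, ?_, ?_⟩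
    · rw [turn_mul, mem_sm ha]
      exact h2 i hi
    · rw [turn_mul]; exact h3
    · rw [turn_mul]; exact h4

theorem box_sm {ι p : ℂ} {x0 x1 y0 y1 t : ℝ} :
    Box ((starRingEnd ℂ) (Complex.I ^ s) * ι) (sm (Complex.I ^ s) b p) x0 x1 y0 y1 t =
      sm (Complex.I ^ s) b '' Box ι p x0 x1 y0 y1 t := by
  have ha := I_pow_ne s
  ext v
  obtain ⟨v, rfl⟩ := sm_surj (b := b) ha v
  rw [mem_sm ha]
  show (starRingEnd ℂ) (Complex.I ^ s) * ι *
    (sm (Complex.I ^ s) b v - sm (Complex.I ^ s) b p) ∈ Rc (x0 - t) (x1 + t) y0 y1 ↔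
      ι * (v - p) ∈ Rc (x0 - t) (x1 + t) y0 y1
  rw [turn_mul]

theorem cio_sm (z z' : ℂ) : cio (sm (Complex.I ^ s) b z) (sm (Complex.I ^ s) b z') =
    (starRingEnd ℂ) (Complex.I ^ s) * cio z z' := by
  unfold cio
  rw [sm_sub, map_mul, norm_mul, norm_I_pow, one_mul, mul_div_assoc]

theorem norm_sm_sub (z z' : ℂ) : ‖sm (Complex.I ^ s) b z' - sm (Complex.I ^ s) b z‖ =
    ‖z' - z‖ := by
  rw [sm_sub, norm_mul, norm_I_pow, one_mul]

theorem ccr_sm {M : ℕ} (z z' : ℂ) :
    CCr M (sm (Complex.I ^ s) b '' X) (sm (Complex.I ^ s) b '' W) (sm (Complex.I ^ s) b z)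
      (sm (Complex.I ^ s) b z') ↔ CCr M X W z z' := by
  unfold CCr
  rw [cio_sm, norm_sm_sub, tcr_sm]

theorem cbox_sm {M : ℕ} (z z' : ℂ) :
    CBox M (sm (Complex.I ^ s) b z) (sm (Complex.I ^ s) b z') =
      sm (Complex.I ^ s) b '' CBox M z z' := by
  unfold CBox
  rw [cio_sm, norm_sm_sub, box_sm]

theorem hbox_sm {M : ℕ} (z : ℂ) :
    hbox M (sm (Complex.I ^ s) b z) = sm (Complex.I ^ s) b '' hbox M z := by
  have ha := I_pow_ne s
  ext v
  obtain ⟨v, rfl⟩ := sm_surj (b := b) ha v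
  rw [mem_sm ha]
  show nsup _ ≤ _ ↔ nsup _ ≤ _
  rw [sm_sub, nsup_I_pow]

theorem ball_turn (z : ℂ) (ρ : ℝ) :
    ball (sm (Complex.I ^ s) b z) ρ = sm (Complex.I ^ s) b '' ball z ρ := by
  have ha := I_pow_ne s
  ext v
  obtain ⟨v, rfl⟩ := sm_surj (b := b) ha v
  rw [mem_sm ha, mem_ball, mem_ball, dist_sm, norm_I_pow, one_mul]

theorem circ_sm {p : ℂ} {ρ R : ℝ} :
    Circ (sm (Complex.I ^ s) b '' X) (sm (Complex.I ^ s) b '' W) (sm (Complex.I ^ s) b p) ρ R ↔
      Circ X W p ρ R := by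
  have ha := I_pow_ne s
  have hi := sm_inj (b := b) ha
  constructor
  · rintro ⟨K, h1, h2, h3, h4, h5, h6⟩
    obtain ⟨K, hK, rfl⟩ := subset_image_iff.1 h1
    refine ⟨K, hK, h2.of_finite_image hi.injOn, h3.of_image, fun z hz => ?_, fun u hu w hw => ?_,
      fun m w hw h7 h8 => ?_⟩
    · have := h4 _ (mem_image_of_mem _ hz)
      rw [sm_sub, nsup_I_pow] at this
      exact this
    · exact chain_sm.1 (h5 _ (mem_image_of_mem _ hu) _ (mem_image_of_mem _ hw))
    · obtain ⟨i, hi', hi''⟩ := h6 m (fun i => sm (Complex.I ^ s) b (w i))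
        (fun i hi => (nbr_sm ha).2 (hw i hi)) (by rw [sm_sub, nsup_I_pow]; exact h7)
        (by rw [sm_sub, nsup_I_pow]; exact h8)
      exact ⟨i, hi', (mem_sm ha).1 hi''⟩
  · rintro ⟨K, h1, h2, h3, h4, h5, h6⟩
    refine ⟨sm (Complex.I ^ s) b '' K, image_mono h1, h2.image _, h3.image _, ?_, ?_, ?_⟩
    · rintro _ ⟨z, hz, rfl⟩
      rw [sm_sub, nsup_I_pow]
      exact h4 z hz
    · rintro _ ⟨u, hu, rfl⟩ _ ⟨w, hw, rfl⟩
      exact chain_sm.2 (h5 u hu w hw)
    · intro m w hw h7 h8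
      choose w' hw' using fun i => sm_surj (b := b) ha (w i)
      rw [← hw' 0, sm_sub, nsup_I_pow] at h7
      rw [← hw' m, sm_sub, nsup_I_pow] at h8
      obtain ⟨i, hi', hi''⟩ := h6 m w' (fun i hi => by
        have := hw i hi
        rw [← hw' i, ← hw' (i + 1)] at this
        exact (nbr_sm ha).1 this) h7 h8
      exact ⟨i, hi', by rw [← hw' i]; exact mem_image_of_mem _ hi''⟩

end Motion

/-! ### the motion of the gates -/

/-- The rigid motion which takes the gate `0` to the gate `l`. -/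
noncomputable def mo (M l : ℕ) : ℂ → ℂ := sm (Complex.I ^ (l / (2 * M + 1))) (tr M l)

theorem mo_apply (M l : ℕ) (z : ℂ) : mo M l z = Complex.I ^ (l / (2 * M + 1)) * z + tr M l := rfl

theorem mo_inj (M l : ℕ) : Injective (mo M l) := sm_inj (I_pow_ne _)

theorem mo_surj (M l : ℕ) : Surjective (mo M l) := sm_surj (I_pow_ne _)

section Gates

variable {M l j : ℕ}

theorem add_div_eq (h : l % (2 * M + 1) + j ≤ 2 * M) :
    (l + j) / (2 * M + 1) = l / (2 * M + 1) := by
  have h1 := Nat.div_add_mod l (2 * M + 1)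
  have h2 : l + j = (2 * M + 1) * (l / (2 * M + 1)) + (l % (2 * M + 1) + j) := by omega
  have h3 : (l % (2 * M + 1) + j) / (2 * M + 1) = 0 := Nat.div_eq_of_lt (by omega)
  rw [h2, Nat.mul_add_div (by omega), h3, add_zero]

theorem add_mod_eq (h : l % (2 * M + 1) + j ≤ 2 * M) :
    (l + j) % (2 * M + 1) = l % (2 * M + 1) + j := by
  have h1 := Nat.div_add_mod l (2 * M + 1)
  have h2 : l + j = (2 * M + 1) * (l / (2 * M + 1)) + (l % (2 * M + 1) + j) := by omega
  have h3 : (l % (2 * M + 1) + j) % (2 * M + 1) = l % (2 * M + 1) + j :=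
    Nat.mod_eq_of_lt (by omega)
  rw [h2, Nat.mul_add_mod, h3]

theorem gateC_add (h : l % (2 * M + 1) + j ≤ 2 * M) : gateC M (l + j) = mo M l (gateC M j) := by
  have hj : j ≤ 2 * M := by omega
  rw [mo_apply]
  unfold gateC tr
  rw [add_div_eq h, add_mod_eq h, Nat.div_eq_of_lt (by omega : j < 2 * M + 1),
    Nat.mod_eq_of_lt (by omega : j < 2 * M + 1), pow_zero, one_mul, ← mul_add]
  congr 1
  apply Complex.ext
  · simp
  · simp
    ring

theorem cellC_add (h : l % (2 * M + 1) + j ≤ 2 * M) : cellC M (l + j) = mo M l (cellC M j) := by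
  have hj : j ≤ 2 * M := by omega
  rw [mo_apply]
  unfold cellC tr
  rw [add_div_eq h, add_mod_eq h, Nat.div_eq_of_lt (by omega : j < 2 * M + 1),
    Nat.mod_eq_of_lt (by omega : j < 2 * M + 1), pow_zero, one_mul, ← mul_add]
  congr 1
  apply Complex.ext
  · simp
  · simp
    ring

theorem uo_add (h : l % (2 * M + 1) + j ≤ 2 * M) :
    uo M (l + j) = Complex.I ^ (l / (2 * M + 1)) * uo M j := by
  unfold uo
  rw [add_div_eq h, Nat.div_eq_of_lt (by omega : j < 2 * M + 1), pow_zero, mul_one]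

theorem pin_add (h : l % (2 * M + 1) + j ≤ 2 * M) : pin M (l + j) = mo M l (pin M j) := by
  unfold pin
  rw [gateC_add h, uo_add h, mo_apply, mo_apply]
  ring

theorem pout_add (h : l % (2 * M + 1) + j ≤ 2 * M) : pout M (l + j) = mo M l (pout M j) := by
  unfold pout
  rw [gateC_add h, uo_add h, mo_apply, mo_apply]
  ring

variable {X Bl Wh : Set ℂ}

theorem inHub_mo (h : l % (2 * M + 1) + j ≤ 2 * M) :
    inHub M (mo M l '' X) (mo M l '' Wh) (l + j) = mo M l '' inHub M X Wh j := by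
  unfold inHub
  rw [pin_add h]
  show hub _ (_ ∩ ball (sm _ _ _) _) _ = _
  rw [ball_turn]
  show hub _ (mo M l '' X ∩ mo M l '' _) _ = _
  rw [← image_inter (mo_inj M l)]
  exact hub_image (mo_inj M l) (mo_surj M l) fun a b => nbr_sm (I_pow_ne _)

theorem outHub_mo (h : l % (2 * M + 1) + j ≤ 2 * M) :
    outHub M (mo M l '' X) (mo M l '' Bl) (l + j) = mo M l '' outHub M X Bl j := by
  unfold outHub
  rw [pout_add h]
  show hub _ (_ ∩ ball (sm _ _ _) _) _ = _
  rw [ball_turn]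
  show hub _ (mo M l '' X ∩ mo M l '' _) _ = _
  rw [← image_inter (mo_inj M l)]
  exact hub_image (mo_inj M l) (mo_surj M l) fun a b => nbr_sm (I_pow_ne _)

theorem inRim_mo (h : l % (2 * M + 1) + j ≤ 2 * M) :
    inRim M (mo M l '' X) (mo M l '' Wh) (l + j) = mo M l '' inRim M X Wh j := by
  unfold inRim
  rw [pin_add h]
  show rim _ (_ ∩ ball (sm _ _ _) _) _ = _
  rw [ball_turn]
  show rim _ (mo M l '' X ∩ mo M l '' _) _ = _
  rw [← image_inter (mo_inj M l)]
  exact rim_image (mo_inj M l) (mo_surj M l) fun a b => nbr_sm (I_pow_ne _)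

theorem outRim_mo (h : l % (2 * M + 1) + j ≤ 2 * M) :
    outRim M (mo M l '' X) (mo M l '' Bl) (l + j) = mo M l '' outRim M X Bl j := by
  unfold outRim
  rw [pout_add h]
  show rim _ (_ ∩ ball (sm _ _ _) _) _ = _
  rw [ball_turn]
  show rim _ (mo M l '' X ∩ mo M l '' _) _ = _
  rw [← image_inter (mo_inj M l)]
  exact rim_image (mo_inj M l) (mo_surj M l) fun a b => nbr_sm (I_pow_ne _)

theorem inGood_mo (h : l % (2 * M + 1) + j ≤ 2 * M) :
    InGood M (mo M l '' X) (mo M l '' Wh) (l + j) ↔ InGood M X Wh j := by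
  unfold InGood
  rw [inHub_mo h, pin_add h]
  show _ ⊆ hbox M (sm _ _ _) ↔ _
  rw [hbox_sm]
  exact image_subset_image_iff (mo_inj M l)

theorem outGood_mo (h : l % (2 * M + 1) + j ≤ 2 * M) :
    OutGood M (mo M l '' X) (mo M l '' Bl) (l + j) ↔ OutGood M X Bl j := by
  unfold OutGood
  rw [outHub_mo h, pout_add h]
  show _ ⊆ hbox M (sm _ _ _) ↔ _
  rw [hbox_sm]
  exact image_subset_image_iff (mo_inj M l)

theorem hubEv_mo (h : l % (2 * M + 1) + j ≤ 2 * M) :
    HubEv M (mo M l '' X) (mo M l '' Bl) (mo M l '' Wh) (l + j) ↔ HubEv M X Bl Wh j :=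
  and_congr (inGood_mo h) (outGood_mo h)

theorem tooth_mo (h : l % (2 * M + 1) + j ≤ 2 * M) :
    Tooth M (mo M l '' X) (mo M l '' Wh) (l + j) ↔ Tooth M X Wh j := by
  unfold Tooth
  rw [pin_add h, pout_add h]
  exact ccr_sm _ _

theorem rails_mo (h : l % (2 * M + 1) + (j + 1) ≤ 2 * M) :
    Rails M (mo M l '' X) (mo M l '' Bl) (mo M l '' Wh) (l + j) ↔ Rails M X Bl Wh j := by
  have h' : l % (2 * M + 1) + j ≤ 2 * M := by omega
  unfold Rails
  rw [add_assoc, pin_add h, pout_add h, pin_add h', pout_add h']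
  exact and_congr (ccr_sm _ _) (ccr_sm _ _)

theorem prad_add (h : l % (2 * M + 1) + j ≤ 2 * M) :
    H995.prad M (l + j) = mo M l (H995.prad M j) := by
  unfold H995.prad
  rw [pout_add h, uo_add h, mo_apply, mo_apply]
  ring

theorem rad_mo (h : l % (2 * M + 1) + j ≤ 2 * M) :
    H938.Rad M (mo M l '' X) (mo M l '' Wh) (l + j) ↔ H938.Rad M X Wh j := by
  unfold H938.Rad
  rw [prad_add h, pout_add h]
  exact ccr_sm _ _

theorem corEv_mo (h : l % (2 * M + 1) + (j + 1) ≤ 2 * M) :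
    CorEv M (mo M l '' X) (mo M l '' Bl) (mo M l '' Wh) (l + j) ↔ CorEv M X Bl Wh j :=
  and_congr (and_congr (tooth_mo (by omega)) (rad_mo (by omega))) (rails_mo h)

theorem gateEv_mo {Bl₁ Wh₁ Wh₂ : Set ℂ} (h : l % (2 * M + 1) + j ≤ 2 * M) :
    GateEv M (mo M l '' X) (mo M l '' Bl₁) (mo M l '' Wh₁) (mo M l '' Wh₂) (l + j) ↔
      GateEv M X Bl₁ Wh₁ Wh₂ j :=
  and_congr (inGood_mo h) (and_congr (outGood_mo h) (tooth_mo h))

theorem hbx_mo (h : l % (2 * M + 1) + j ≤ 2 * M) : HBx M (l + j) = mo M l '' HBx M j := by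
  unfold HBx
  rw [pin_add h, pout_add h, image_union]
  exact congrArg₂ _ (hbox_sm _) (hbox_sm _)

theorem cbx_mo (h : l % (2 * M + 1) + (j + 1) ≤ 2 * M) : CBx M (l + j) = mo M l '' CBx M j := by
  have h' : l % (2 * M + 1) + j ≤ 2 * M := by omega
  unfold CBx VB LB UB H938.RB
  rw [add_assoc, pin_add h, pout_add h, pin_add h', pout_add h', prad_add h', image_union,
    image_union, image_union]
  exact congrArg₂ _ (congrArg₂ _ (cbox_sm _ _) (cbox_sm _ _))
    (congrArg₂ _ (cbox_sm _ _) (cbox_sm _ _))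

/-- The quenched probabilities of the hub events. -/
theorem qpr_hubEv_mo (h : l % (2 * M + 1) + j ≤ 2 * M) (N : Set ℂ) :
    qpr (mo M l '' N) (fun W => HubEv M (mo M l '' X) W ((mo M l '' N) \ W) (l + j)) =
      qpr N (fun W => HubEv M X W (N \ W) j) := by
  rw [qpr_image (mo_inj M l)]
  congr 1
  funext W
  apply propext
  rw [← image_sdiff (mo_inj M l)]
  exact hubEv_mo h

/-- The quenched probabilities of the corridor events. -/
theorem qpr_corEv_mo (h : l % (2 * M + 1) + (j + 1) ≤ 2 * M) (N : Set ℂ) :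
    qpr (mo M l '' N) (fun W => CorEv M (mo M l '' X) W ((mo M l '' N) \ W) (l + j)) =
      qpr N (fun W => CorEv M X W (N \ W) j) := by
  rw [qpr_image (mo_inj M l)]
  congr 1
  funext W
  apply propext
  rw [← image_sdiff (mo_inj M l)]
  exact corEv_mo h

end Gates

end Vale.Agent.P148.R2.H826
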