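import Vale.Agent.P148.R2.H826.Eq1
import Vale.Agent.P148.R2.H184.L3

/-!
# Congruent pieces of strands in two triangulations (P148, row EQ)

Two Delaunay triangulations (of different finite sets, with different contractions) whose point
sets correspond to each other in a region `Q` under the similarity `z ↦ a z + b`, with the same
colours: the strands run parallel as long as they use faces whose circumdisc is in `Q`.
-/

open Set Metric Function
open scoped ENNReal

namespace Vale.Agent.P148.R2.H826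

open H592 H184

section
variable {a b : ℂ} {X X' Q : Set ℂ}

/-- Locality and equivariance of the local faces. -/
theorem LF_cong (ha : a ≠ 0) (hX : sm a b '' (X ∩ Q) = X' ∩ sm a b '' Q) {d : Dt} :
    LF X' (sm a b '' Q) (sd a b d) ↔ LF X Q d := by
  rw [← LF_inter, ← hX, ← LF_inter (X := X) (Q := Q)]
  exact LF_sd ha

theorem mem_transport (hX : sm a b '' (X ∩ Q) = X' ∩ sm a b '' Q) {x : ℂ}
    (hx : x ∈ X) (hq : x ∈ Q) : sm a b x ∈ X' :=
  (hX ▸ mem_image_of_mem _ ⟨hx, hq⟩ : sm a b x ∈ X' ∩ sm a b '' Q).1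

variable {β β' : ZMod 3 → ℂ} (h : HullTri X β) (h' : HullTri X' β')
variable {V V' : Type*} (π : ℂ → V) (hπ : Fib X π) (π' : ℂ → V') (hπ' : Fib X' π')

include h' in
/-- Corresponding darts exist. -/
theorem exists_cong (ha : a ≠ 0) (hX : sm a b '' (X ∩ Q) = X' ∩ sm a b '' Q)
    {d : Dt} (hd : LF X Q d) : ∃ q' : Fc X' β' × ZMod 3, dt q' = sd a b d :=
  exists_dt h' ((LF_cong ha hX).2 hd)

/-- **One step.** -/
theorem st_cong (ha : a ≠ 0) (hX : sm a b '' (X ∩ Q) = X' ∩ sm a b '' Q)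
    {σ : V → Bool} {σ' : V' → Bool}
    (hc : ∀ x ∈ X, x ∈ Q → pc π' σ' (sm a b x) = pc π σ x)
    {q : Fc X β × ZMod 3} {q' : Fc X' β' × ZMod 3} (h0 : dt q' = sd a b (dt q))
    (hb : (h.tri258 π hπ).Bi σ q) (hl : LF X Q (dt q))
    (hl' : LF X Q (dt ((h.tri258 π hπ).st σ q))) :
    (h'.tri258 π' hπ').Bi σ' q' ∧ dt ((h'.tri258 π' hπ').st σ' q') =
      sd a b (dt ((h.tri258 π hπ).st σ q)) := by
  obtain ⟨m1, m2, m3⟩ := hl.mem
  have e1 : pc π' σ' (dt q').1 = pc π σ (dt q).1 := by rw [h0]; exact hc _ hl.1.1 m1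
  have e2 : pc π' σ' (dt q').2.1 = pc π σ (dt q).2.1 := by rw [h0]; exact hc _ hl.1.2.1 m2
  have e3 : pc π' σ' (dt q').2.2 = pc π σ (dt q).2.2 := by rw [h0]; exact hc _ hl.1.2.2 m3
  have hb' : (h'.tri258 π' hπ').Bi σ' q' := by
    rw [bi_iff, e1, e2]
    exact (bi_iff h π hπ σ q).1 hb
  refine ⟨hb', ?_⟩
  have n1 := nx_st h π hπ hb
  have n2 := nx_st h' π' hπ' hb'
  obtain ⟨r, hr⟩ := exists_cong h' ha hX hl'
  rw [← hr]
  congr 1
  apply h'.th_inj
  · have : (dt ((h'.tri258 π' hπ').st σ' q')).1 = (dt r).1 := by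
      rw [n2.2.1, hr]
      simp only [e1, e3]
      show _ = sm a b (dt ((h.tri258 π hπ).st σ q)).1
      rw [n1.2.1, h0]
      by_cases hh : pc π σ (dt q).2.2 = pc π σ (dt q).1
      · rw [if_pos hh, if_pos hh]; rfl
      · rw [if_neg hh, if_neg hh]; rfl
    exact this
  · have : (dt ((h'.tri258 π' hπ').st σ' q')).2.1 = (dt r).2.1 := by
      rw [n2.2.2, hr]
      simp only [e1, e3]
      show _ = sm a b (dt ((h.tri258 π hπ).st σ q)).2.1
      rw [n1.2.2, h0]
      by_cases hh : pc π σ (dt q).2.2 = pc π σ (dt q).1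
      · rw [if_pos hh, if_pos hh]; rfl
      · rw [if_neg hh, if_neg hh]; rfl
    exact this

/-- **Congruent pieces**: the two strands run parallel as long as the faces are local. -/
theorem iter_cong (ha : a ≠ 0) (hX : sm a b '' (X ∩ Q) = X' ∩ sm a b '' Q)
    {σ : V → Bool} {σ' : V' → Bool}
    (hc : ∀ x ∈ X, x ∈ Q → pc π' σ' (sm a b x) = pc π σ x)
    {q : Fc X β × ZMod 3} {q' : Fc X' β' × ZMod 3} (h0 : dt q' = sd a b (dt q))
    (hb : (h.tri258 π hπ).Bi σ q) {n : ℕ}
    (hl : ∀ i ≤ n, LF X Q (dt (((h.tri258 π hπ).st σ)^[i] q))) {i : ℕ} (hi : i ≤ n) :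
    dt (((h'.tri258 π' hπ').st σ')^[i] q') = sd a b (dt (((h.tri258 π hπ).st σ)^[i] q)) := by
  induction i with
  | zero => exact h0
  | succ i ih =>
    have h1 := ih (by omega)
    have hb1 : (h.tri258 π hπ).Bi σ (((h.tri258 π hπ).st σ)^[i] q) :=
      ((h.tri258 π hπ).bi_iter i).2 hb
    have h2 := hl (i + 1) hi
    rw [iterate_succ', comp_apply] at h2
    have := (st_cong h h' π hπ π' hπ' ha hX hc h1 hb1 (hl i (by omega)) h2).2
    rw [iterate_succ', comp_apply, iterate_succ', comp_apply]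
    exact this

/-- Backward steps: a dart whose successor corresponds to the successor of a local dart is the
corresponding one. -/
theorem st_cong_back (ha : a ≠ 0) (hX : sm a b '' (X ∩ Q) = X' ∩ sm a b '' Q)
    {σ : V → Bool} {σ' : V' → Bool}
    (hc : ∀ x ∈ X, x ∈ Q → pc π' σ' (sm a b x) = pc π σ x)
    (hinj : Injective ((h'.tri258 π' hπ').st σ'))
    {q : Fc X β × ZMod 3} {q' : Fc X' β' × ZMod 3}
    (h0 : dt ((h'.tri258 π' hπ').st σ' q') = sd a b (dt ((h.tri258 π hπ).st σ q)))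
    (hb : (h.tri258 π hπ).Bi σ q) (hl : LF X Q (dt q))
    (hl' : LF X Q (dt ((h.tri258 π hπ).st σ q))) : dt q' = sd a b (dt q) := by
  obtain ⟨r, hr⟩ := exists_cong h' ha hX hl
  have := (st_cong h h' π hπ π' hπ' ha hX hc hr hb hl hl').2
  rw [← this] at h0
  have h1 := hinj (dt_injective h' h0)
  rw [h1, hr]

end

end Vale.Agent.P148.R2.H826
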