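import Vale.Agent.P148.R2.H826.CombEq
import Vale.Agent.P148.R2.H959.Reg
import Vale.Agent.P148.R2.H995.CombRad
import Vale.Agent.P148.R2.H565.Loc4
import Vale.Agent.P148.R2.H488.Cw
import Vale.Agent.P148.R2.H184.L8

/-!
# P148, row N5: the motion of the regions, and unconditional equivariance of the pieces

* `gbox_mo`, `cell_mo`, `disp_add`, `reg_mo`, `hc_mo`
* `PV_smI` : `PV_sm` without the hypothesis that the piece exists
-/

open Set Metric Function

namespace Vale.Agent.P148.R2.H826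

open Vale.Agent.P148.R2 Vale.Agent.P148.R2.N Vale.Agent.P148.R2.H592 Vale.Agent.P148.R2.H184
open Vale.Agent.P148.R2.H565 (PV PP PP_sm PV_sm PV_eq)

section Gates

variable {M l j : ℕ}

theorem csq_sm {s : ℕ} {b z : ℂ} {r : ℝ} :
    csq (sm (Complex.I ^ s) b z) r = sm (Complex.I ^ s) b '' csq z r := by
  have ha := I_pow_ne s
  ext v
  obtain ⟨v, rfl⟩ := sm_surj (b := b) ha v
  rw [mem_sm ha]
  unfold sm
  rw [csq_add, csq_I_pow]

theorem gbox_mo (h : l % (2 * M + 1) + j ≤ 2 * M) : gbox M (l + j) = mo M l '' gbox M j := by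
  unfold gbox
  rw [gateC_add h]
  exact csq_sm

theorem cell_mo (h : l % (2 * M + 1) + j ≤ 2 * M) : cell M (l + j) = mo M l '' cell M j := by
  unfold cell
  rw [cellC_add h]
  exact csq_sm

theorem disp_add (h : l % (2 * M + 1) + (j + 1) ≤ 2 * M) :
    disp M (l + j) = Complex.I ^ (l / (2 * M + 1)) * disp M j := by
  unfold disp
  rw [add_mod_eq (by omega), add_div_eq (by omega), if_neg (by omega),
    Nat.mod_eq_of_lt (by omega : j < 2 * M + 1), if_neg (by omega),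
    Nat.div_eq_of_lt (by omega : j < 2 * M + 1), pow_zero, one_mul]

theorem reg_mo (h : l % (2 * M + 1) + (j + 1) ≤ 2 * M) :
    H959.reg M (l + j) = mo M l '' H959.reg M j := by
  ext v
  obtain ⟨v, rfl⟩ := mo_surj M l v
  rw [(mo_inj M l).mem_set_image]
  have e : ∀ t : ℝ, csq (gateC M (l + j) + (t : ℂ) * disp M (l + j)) (ms M / 8) =
      mo M l '' csq (gateC M j + (t : ℂ) * disp M j) (ms M / 8) := by
    intro t
    rw [gateC_add (by omega), disp_add h]
    have : mo M l (gateC M j) + (t : ℂ) * (Complex.I ^ (l / (2 * M + 1)) * disp M j) =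
        mo M l (gateC M j + (t : ℂ) * disp M j) := by
      rw [mo_apply, mo_apply]; ring
    rw [this]
    exact csq_sm
  constructor
  · rintro ⟨t, t0, t1, hz⟩
    rw [e, (mo_inj M l).mem_set_image] at hz
    exact ⟨t, t0, t1, hz⟩
  · rintro ⟨t, t0, t1, hz⟩
    refine ⟨t, t0, t1, ?_⟩
    rw [e, (mo_inj M l).mem_set_image]
    exact hz

theorem hc_mo (h : l % (2 * M + 1) + j ≤ 2 * M) : H488.hc M (l + j) = mo M l '' H488.hc M j := by
  have hj : j ≤ 2 * M := by omega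
  ext v
  obtain ⟨v, rfl⟩ := mo_surj M l v
  rw [(mo_inj M l).mem_set_image]
  have e1 : mo M l v = Complex.I ^ ((l + j) / (2 * M + 1)) *
      (v + ⟨0, (l % (2 * M + 1) : ℕ) * ms M⟩) := by
    rw [add_div_eq h, mo_apply]
    unfold tr
    have e0 : (⟨0, (l % (2 * M + 1) : ℕ) * ms M⟩ : ℂ) =
        Complex.I * (((l % (2 * M + 1) : ℕ) : ℝ) * ms M : ℝ) := by
      apply Complex.ext <;> simp
    rw [e0]
    ring
  have e2 : v = Complex.I ^ (j / (2 * M + 1)) * v := by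
    rw [Nat.div_eq_of_lt (by omega), pow_zero, one_mul]
  rw [e1, H488.mem_hc]
  conv_rhs => rw [e2]
  rw [H488.mem_hc, add_mod_eq h, Nat.mod_eq_of_lt (by omega : j < 2 * M + 1)]
  simp only [Complex.add_re, Complex.add_im, add_zero]
  push_cast
  constructor
  · rintro ⟨h1, h2, h3⟩
    exact ⟨h1, by linarith, by linarith⟩
  · rintro ⟨h1, h2, h3⟩
    exact ⟨h1, by linarith, by linarith⟩

end Gates

/-! ### pieces -/

section PVeq

variable {X Q : Set ℂ} {c c' : ℂ → Bool} {a b : ℂ × ℂ}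

/-- The image of a dart. -/
def smD (α β : ℂ) (d : Dt) : Dt := (sm α β d.1, sm α β d.2.1, sm α β d.2.2)

theorem sm_eq (α β : ℂ) : H565.sm α β = sm α β := rfl

theorem smD_eq (α β : ℂ) : H565.smD α β = smD α β := rfl

theorem sm_inv {α β : ℂ} (hα : α ≠ 0) (z : ℂ) : sm α⁻¹ (-(α⁻¹ * β)) (sm α β z) = z := by
  unfold sm
  field_simp
  ring

theorem smD_inv {α β : ℂ} (hα : α ≠ 0) (d : Dt) :
    smD α⁻¹ (-(α⁻¹ * β)) (smD α β d) = d := by
  show (sm _ _ (sm _ _ _), sm _ _ (sm _ _ _), sm _ _ (sm _ _ _)) = d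
  rw [sm_inv hα, sm_inv hα, sm_inv hα]

theorem sm_inv_image {α β : ℂ} (hα : α ≠ 0) (Y : Set ℂ) :
    sm α⁻¹ (-(α⁻¹ * β)) '' (sm α β '' Y) = Y := by
  rw [image_image]
  simp only [sm_inv hα, image_id']

/-- Equivariance of the value of a piece, whether the piece exists or not. -/
theorem PV_smI (h3 : Three X) {α β : ℂ} (hα : α ≠ 0) (hc : ∀ z ∈ X ∩ Q, c' (sm α β z) = c z)
    (Θ : Dt → ℂ) :
    PV (sm α β '' X) (sm α β '' Q) c' (sm α β a.1, sm α β a.2) (sm α β b.1, sm α β b.2) Θ =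
      PV X Q c a b (fun d => Θ (smD α β d)) := by
  by_cases h : ∃ nf : ℕ × (ℕ → Dt), PP X Q c a b nf.1 nf.2
  · obtain ⟨nf, h⟩ := h
    exact PV_sm h3 hα hc h Θ
  · have h' : ¬ ∃ nf : ℕ × (ℕ → Dt), PP (sm α β '' X) (sm α β '' Q) c'
        (sm α β a.1, sm α β a.2) (sm α β b.1, sm α β b.2) nf.1 nf.2 := by
      rintro ⟨nf, h'⟩
      apply h
      have hα' : α⁻¹ ≠ 0 := inv_ne_zero hα
      have := PP_sm (c' := c) (X := sm α β '' X) (Q := sm α β '' Q) (c := c') (α := α⁻¹)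
        (β := -(α⁻¹ * β)) hα' (by
          rintro _ ⟨⟨z, hz, rfl⟩, ⟨w, hw, hzw⟩⟩
          have hwz : w = z := sm_inj hα hzw
          show c (sm α⁻¹ (-(α⁻¹ * β)) (sm α β z)) = _
          rw [sm_inv hα]
          exact (hc z ⟨hz, hwz ▸ hw⟩).symm) h'
      rw [sm_eq, smD_eq, sm_inv_image hα, sm_inv_image hα] at this
      simp only [sm_inv hα, Prod.mk.eta] at this
      exact ⟨(nf.1, fun i => smD α⁻¹ (-(α⁻¹ * β)) (nf.2 i)), this⟩
    unfold PV
    rw [dif_neg h, dif_neg h']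

theorem PV_mul (κ : ℂ) (Θ : Dt → ℂ) :
    PV X Q c a b (fun d => κ * Θ d) = κ * PV X Q c a b Θ := by
  unfold PV
  split_ifs with h
  · unfold H565.segQ
    rw [Finset.mul_sum]
    apply Finset.sum_congr rfl
    intro i _
    split_ifs
    · rfl
    · rw [mul_zero]
  · rw [mul_zero]

/-- Weights which turn with the plane. -/
def Turn (Θ : Dt → ℂ) : Prop :=
  ∀ (s : ℕ) (b : ℂ) (d : Dt), Θ (smD (Complex.I ^ s) b d) = Complex.I ^ s * Θ d

theorem turn_th {τ : ℂ} (hτ : τ ^ 2 + τ + 1 = 0) : Turn (th τ) := by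
  intro s b d
  unfold th smD sm
  linear_combination b * hτ

theorem cw_turn {Θ : Dt → ℂ} (hΘ : Turn Θ) (s : ℕ) (β : ℂ) (A : Set ℂ) (d : Dt) :
    H488.cw (sm (Complex.I ^ s) β '' A) Θ (smD (Complex.I ^ s) β d) =
      Complex.I ^ s * H488.cw A Θ d := by
  have h := H488.cw_sm (A := A) (Θ := Θ) (β := β) (I_pow_ne s) d
  rw [sm_eq, smD_eq] at h
  rw [h]
  unfold H488.cw
  split_ifs
  · exact hΘ s β d
  · rw [mul_zero]

/-- **Equivariance of a piece with the weight of a cell.** -/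
theorem PV_mo {Θ : Dt → ℂ} (hΘ : Turn Θ) (h3 : Three X) {M l j : ℕ}
    (h : l % (2 * M + 1) + j ≤ 2 * M) (hc : ∀ z ∈ X ∩ Q, c' (mo M l z) = c z) :
    PV (mo M l '' X) (mo M l '' Q) c' (mo M l a.1, mo M l a.2) (mo M l b.1, mo M l b.2)
      (H488.cw (H488.hc M (l + j)) Θ) =
        Complex.I ^ (l / (2 * M + 1)) * PV X Q c a b (H488.cw (H488.hc M j) Θ) := by
  rw [hc_mo h]
  have e := PV_smI (X := X) (Q := Q) (c := c) (c' := c') (a := a) (b := b) h3
    (α := Complex.I ^ (l / (2 * M + 1))) (β := tr M l) (I_pow_ne _) hc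
    (H488.cw (sm (Complex.I ^ (l / (2 * M + 1))) (tr M l) '' H488.hc M j) Θ)
  unfold mo
  rw [e]
  simp only [cw_turn hΘ]
  exact PV_mul _ _

end PVeq

/-! ### mixtures -/

theorem mix_image {f : ℂ → ℂ} (hf : Injective f) (E B B' : Set ℂ) :
    H678.mix (f '' E) (f '' B) (f '' B') = f '' H678.mix E B B' := by
  unfold H678.mix
  rw [image_union, image_inter hf, image_sdiff hf]

end Vale.Agent.P148.R2.H826
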