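import Vale.Agent.P148.R2.H826.RegEq
import Vale.Agent.P148.R2.H565.Vk

/-!
# P148, row N5: equivariance of the value of a cell

`cellV_mo` : the value of the cell `l + j` of the moved configuration is `i ^ s` times the value of
the cell `j`.
-/

open Set Relation Metric Function

namespace Vale.Agent.P148.R2.H826

open Vale.Agent.P148.R2.N
open Vale.Agent.P148.R2.H678
open Vale.Agent.P148.R2.H592 (nbr Three)
open Vale.Agent.P148.R2.H184 (Dt)
open Vale.Agent.P148.R2.H565 (bc Foot Qw FP Fv gb cellV PV PP PP_sm Qw_gb gb_add)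

variable {M l j : ℕ} {Y B : Set ℂ} {a b : ℂ × ℂ}

theorem bc_mo (z : ℂ) : bc (mo M l '' B) (mo M l z) = bc B z := by
  unfold bc
  rw [(mo_inj M l).mem_set_image]

theorem foot_mo (h : l % (2 * M + 1) + j ≤ 2 * M) :
    Foot M (mo M l '' Y) (mo M l '' B) (l + j) (mo M l a.1, mo M l a.2) ↔ Foot M Y B j a := by
  have hi := mo_inj M l
  have hd : mo M l '' Y \ mo M l '' B = mo M l '' (Y \ B) := (image_sdiff hi Y B).symm
  constructor
  · rintro ⟨n, v, h1, h2, h3, h4, h5, h6, h7, h8⟩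
    choose v' hv' using fun i => mo_surj M l (v i)
    rw [hd] at h5 h7
    rw [inRim_mo h, ← hv' 0, hi.mem_set_image] at h5
    rw [outRim_mo h, ← hv' n, hi.mem_set_image] at h6
    refine ⟨n, v', h1, fun i hi' => ?_, ?_, ?_, h5, h6, fun i hi0 hin => ?_, fun i hin => ?_⟩
    · have := h2 i hi'
      rw [← hv' i, ← hv' (i + 1)] at this
      exact (nbr_sm (I_pow_ne _)).1 this
    · exact hi ((hv' 0).trans h3)
    · exact hi ((hv' 1).trans h4)
    · have := h7 i hi0 hin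
      rwa [inHub_mo h, outHub_mo h, ← hv' i, hi.mem_set_image, hi.mem_set_image,
        hi.mem_set_image] at this
    · have := h8 i hin
      rwa [gbox_mo h, ← hv' i, hi.mem_set_image] at this
  · rintro ⟨n, v, h1, h2, h3, h4, h5, h6, h7, h8⟩
    refine ⟨n, fun i => mo M l (v i), h1, fun i hi' => (nbr_sm (I_pow_ne _)).2 (h2 i hi'),
      congrArg _ h3, congrArg _ h4, ?_, ?_, fun i hi0 hin => ?_, fun i hin => ?_⟩
    · rw [hd, inRim_mo h]
      exact mem_image_of_mem _ h5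
    · rw [outRim_mo h]
      exact mem_image_of_mem _ h6
    · rw [hd, inHub_mo h, outHub_mo h, hi.mem_set_image, hi.mem_set_image, hi.mem_set_image]
      exact h7 i hi0 hin
    · rw [gbox_mo h, hi.mem_set_image]
      exact h8 i hin

theorem Qw_mo (h : l % (2 * M + 1) + (j + 2) ≤ 2 * M) : Qw M (l + j) = mo M l '' Qw M j := by
  unfold Qw
  rw [add_assoc, cellC_add h]
  exact csq_sm

theorem exPP_mo (Q : Set ℂ) : (∃ n f, PP (mo M l '' Y) (mo M l '' Q) (bc (mo M l '' B))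
    (mo M l a.1, mo M l a.2) (mo M l b.1, mo M l b.2) n f) ↔ ∃ n f, PP Y Q (bc B) a b n f := by
  constructor
  · rintro ⟨n, f, h⟩
    have hα := I_pow_ne (l / (2 * M + 1))
    have hα' : ((Complex.I : ℂ) ^ (l / (2 * M + 1)))⁻¹ ≠ 0 := inv_ne_zero hα
    have hmo : ∀ z, sm (Complex.I ^ (l / (2 * M + 1)))⁻¹
        (-((Complex.I ^ (l / (2 * M + 1)))⁻¹ * tr M l)) (mo M l z) = z := sm_inv hα
    have := PP_sm (c' := bc B) (X := mo M l '' Y) (Q := mo M l '' Q) (c := bc (mo M l '' B))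
      (β := -((Complex.I ^ (l / (2 * M + 1)))⁻¹ * tr M l)) hα' (by
        rintro _ ⟨⟨z, hz, rfl⟩, -⟩
        show bc B (sm _ _ (mo M l z)) = _
        rw [hmo, bc_mo]) h
    rw [sm_eq, smD_eq] at this
    have e : ∀ Z : Set ℂ, sm (Complex.I ^ (l / (2 * M + 1)))⁻¹
        (-((Complex.I ^ (l / (2 * M + 1)))⁻¹ * tr M l)) '' (mo M l '' Z) = Z :=
      sm_inv_image hα
    rw [e, e] at this
    simp only [hmo, Prod.mk.eta] at this
    exact ⟨_, _, this⟩
  · rintro ⟨n, f, h⟩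
    exact ⟨n, _, PP_sm (α := Complex.I ^ (l / (2 * M + 1))) (β := tr M l) (I_pow_ne _)
      (fun z _ => bc_mo z) h⟩

/-- The motion of a pair of edges. -/
noncomputable def mo2 (M l : ℕ) (p : (ℂ × ℂ) × (ℂ × ℂ)) : (ℂ × ℂ) × (ℂ × ℂ) :=
  ((mo M l p.1.1, mo M l p.1.2), (mo M l p.2.1, mo M l p.2.2))

theorem mo2_inj (M l : ℕ) : Injective (mo2 M l) := by
  rintro ⟨⟨a, b⟩, c, d⟩ ⟨⟨a', b'⟩, c', d'⟩ h
  unfold mo2 at h
  simp only [Prod.mk.injEq] at h
  obtain ⟨⟨h1, h2⟩, h3, h4⟩ := h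
  rw [mo_inj M l h1, mo_inj M l h2, mo_inj M l h3, mo_inj M l h4]

theorem mo2_surj (M l : ℕ) : Surjective (mo2 M l) := by
  rintro ⟨⟨a, b⟩, c, d⟩
  obtain ⟨a, rfl⟩ := mo_surj M l a
  obtain ⟨b, rfl⟩ := mo_surj M l b
  obtain ⟨c, rfl⟩ := mo_surj M l c
  obtain ⟨d, rfl⟩ := mo_surj M l d
  exact ⟨((a, b), (c, d)), rfl⟩

theorem FP_mo (h : l % (2 * M + 1) + (j + 5) ≤ 2 * M) :
    FP M (mo M l '' Y) (mo M l '' B) (l + j) = mo2 M l '' FP M Y B j := by
  ext p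
  obtain ⟨p, rfl⟩ := mo2_surj M l p
  rw [(mo2_inj M l).mem_set_image]
  unfold FP
  rw [mem_ofPred_eq, mem_ofPred_eq, Qw_mo (by omega), add_assoc]
  unfold mo2
  rw [foot_mo (a := p.1) (by omega), foot_mo (a := p.2) (by omega), foot_mo (a := p.1) (by omega),
    foot_mo (a := p.2) (by omega), exPP_mo]

/-- Equivariance of the value between two gates. -/
theorem Fv_mo {Θ : Dt → ℂ} (hΘ : Turn Θ) (h3 : Three Y)
    (h : l % (2 * M + 1) + (j + 5) ≤ 2 * M) :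
    Fv M (mo M l '' Y) (mo M l '' B) (H488.cw (H488.hc M (l + (j + 2))) Θ) (l + j) =
      Complex.I ^ (l / (2 * M + 1)) * Fv M Y B (H488.cw (H488.hc M (j + 2)) Θ) j := by
  unfold Fv
  rw [FP_mo h, ncard_image_of_injective _ (mo2_inj M l), finsum_mem_image (mo2_inj M l).injOn,
    Qw_mo (by omega)]
  have e : ∀ p : (ℂ × ℂ) × (ℂ × ℂ), PV (mo M l '' Y) (mo M l '' Qw M j) (bc (mo M l '' B))
      (mo2 M l p).1 (mo2 M l p).2 (H488.cw (H488.hc M (l + (j + 2))) Θ) =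
      Complex.I ^ (l / (2 * M + 1)) *
        PV Y (Qw M j) (bc B) p.1 p.2 (H488.cw (H488.hc M (j + 2)) Θ) := fun p =>
    PV_mo hΘ h3 (by omega) fun z _ => bc_mo z
  simp only [e]
  have e2 : ∀ (c : ℂ) (S : Set ((ℂ × ℂ) × (ℂ × ℂ))) (f : (ℂ × ℂ) × (ℂ × ℂ) → ℂ),
      ∑ᶠ p ∈ S, c * f p = c * ∑ᶠ p ∈ S, f p := by
    intro c S f
    have h1 := smul_finsum c fun p => ∑ᶠ (_ : p ∈ S), f p
    have h2 : ∀ p, c • ∑ᶠ (_ : p ∈ S), f p = ∑ᶠ (_ : p ∈ S), c • f p := fun p => smul_finsum _ _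
    simp only [h2] at h1
    exact h1.symm
  rw [e2, mul_div_assoc]

/-! ### the period -/

theorem pin_nc (M k : ℕ) : pin M (k + nc M) = pin M k := by
  rw [← H995.pin_mod, Nat.add_mod_right, H995.pin_mod]

theorem pout_nc (M k : ℕ) : pout M (k + nc M) = pout M k := by
  rw [← H995.pout_mod, Nat.add_mod_right, H995.pout_mod]

theorem foot_nc (M k : ℕ) (Y B : Set ℂ) (a : ℂ × ℂ) :
    Foot M Y B (k + nc M) a ↔ Foot M Y B k a := by
  unfold Foot inHub outHub inRim outRim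
  rw [pin_nc, pout_nc, gbox_add_nc]

theorem Qw_nc (M k : ℕ) : Qw M (k + nc M) = Qw M k := by
  unfold Qw
  rw [add_right_comm, cellC_add_nc]

theorem FP_nc (M k : ℕ) (Y B : Set ℂ) : FP M Y B (k + nc M) = FP M Y B k := by
  unfold FP
  rw [Qw_nc]
  simp only [add_right_comm k (nc M) 5, foot_nc]

theorem Fv_nc (M k : ℕ) (Y B : Set ℂ) (Θ : Dt → ℂ) : Fv M Y B Θ (k + nc M) = Fv M Y B Θ k := by
  unfold Fv
  rw [FP_nc, Qw_nc]

/-- The value of a cell, without the shift by a full turn. -/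
theorem cellV_eq (M k : ℕ) (X B : Set ℂ) (Θ : Dt → ℂ) :
    cellV M X B Θ (k + 2) =
      Fv M (X ∩ csq (cellC M (k + 2)) (3 * ms M)) (B ∩ csq (cellC M (k + 2)) (3 * ms M)) Θ k := by
  have e : gb M (k + 2) = k + nc M := by
    have := gb_add M (k + 2)
    omega
  unfold cellV
  rw [e, Fv_nc, Qw_nc]
  rfl

/-- **Equivariance of the value of a cell.** -/
theorem cellV_mo {X : Set ℂ} {Θ : Dt → ℂ} (hΘ : Turn Θ) (hj : 2 ≤ j)
    (h3 : Three (X ∩ csq (cellC M j) (3 * ms M)))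
    (h : l % (2 * M + 1) + (j + 3) ≤ 2 * M) :
    cellV M (mo M l '' X) (mo M l '' B) (H488.cw (H488.hc M (l + j)) Θ) (l + j) =
      Complex.I ^ (l / (2 * M + 1)) * cellV M X B (H488.cw (H488.hc M j) Θ) j := by
  obtain ⟨i, rfl⟩ : ∃ i, j = i + 2 := ⟨j - 2, by omega⟩
  have e : csq (cellC M (l + i + 2)) (3 * ms M) =
      mo M l '' csq (cellC M (i + 2)) (3 * ms M) := by
    rw [add_assoc, cellC_add (by omega)]
    exact csq_sm
  rw [← add_assoc, cellV_eq, cellV_eq, e, ← image_inter (mo_inj M l), ← image_inter (mo_inj M l),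
    add_assoc]
  exact Fv_mo hΘ h3 (by omega)

end Vale.Agent.P148.R2.H826
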